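import Vale.Agent.P004K.Defs

/-! # P004K: the calculus of `Tp` -/

set_option autoImplicit false

open scoped ComplexConjugate

noncomputable section

namespace Vale.Agent.P004K

open Vale.Agent.P022 P027H P027M.M

variable {σ σ' : ℂ ≃+* ℂ} {μ μ' c : ℂ} {Λ Λ' Λ'' M M' : Submodule ℤ ℂ} {ψ ψ' : ℂ → ℂ}

theorem fin_index (h : IsLat Λ) (h' : IsLat Λ') (hle : Λ ≤ Λ') :
    ∃ n : ℕ, 0 < n ∧ ∀ z ∈ Λ', (n : ℂ) * z ∈ Λ := by
  obtain ⟨L, rfl⟩ := h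
  obtain ⟨L', rfl⟩ := h'
  obtain ⟨a, b, e1⟩ := PeriodPair.mem_lattice.1 (hle L.ω₁_mem_lattice)
  obtain ⟨c, d, e2⟩ := PeriodPair.mem_lattice.1 (hle L.ω₂_mem_lattice)
  have n0 : a * d - b * c ≠ 0 := fun k => by
    have k' : (a : ℂ) * d - b * c = 0 := by exact_mod_cast k
    have h1 := LinearIndependent.pair_iff.1 L.indep d (-b) (by
      simp only [Complex.real_smul]; push_cast; linear_combination L'.ω₁ * k' - d * e1 + b * e2)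
    have h2 := LinearIndependent.pair_iff.1 L.indep c (-a) (by
      simp only [Complex.real_smul]; push_cast; linear_combination -L'.ω₂ * k' - c * e1 + a * e2)
    have a0 : a = 0 := by exact_mod_cast neg_eq_zero.1 h2.2
    have b0 : b = 0 := by exact_mod_cast neg_eq_zero.1 h1.2
    exact one_ne_zero (LinearIndependent.pair_iff.1 L.indep 1 0 (by simp [← e1, a0, b0])).1
  refine ⟨(a * d - b * c).natAbs ^ 2, pow_pos (Int.natAbs_pos.2 n0) 2, fun z hz => ?_⟩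
  obtain ⟨m, n, rfl⟩ := PeriodPair.mem_lattice.1 hz
  rw [← Int.cast_natCast, Nat.cast_pow, Int.natAbs_sq]
  refine PeriodPair.mem_lattice.2 ⟨(a * d - b * c) * (m * d - n * c),
    (a * d - b * c) * (n * a - m * b), ?_⟩
  rw [← e1, ← e2]
  push_cast
  ring

/-- `Tp` with the factor named -/
structure Tq (σ : ℂ ≃+* ℂ) (μ : ℂ) (Λ Λ' : Submodule ℤ ℂ) (ψ : ℂ → ℂ) : Prop where
  ne : μ ≠ 0
  lat : IsLat Λ
  lat' : IsLat Λ'
  mem : ∀ z, ψ z ∈ Λ' ↔ z ∈ Λ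
  add : ∀ z w, ψ (z + w) - ψ z - ψ w ∈ Λ'
  surj : ∀ z', ∃ z, ψ z - z' ∈ Λ'
  wp : ∀ z, wp Λ' (ψ z) = μ ^ 2 * σ (wp Λ z)
  dwp : ∀ z, dwp Λ' (ψ z) = μ ^ 3 * σ (dwp Λ z)

theorem Tq.tr (h : Tq σ μ Λ Λ' ψ) : Tr (σ : ℂ →+* ℂ) Λ (scl μ Λ') fun z => μ * ψ z := by
  have k := hom_scl h.ne Λ'
  have h0 := h.ne
  refine ⟨h.lat, k.isLat h.lat', fun z => (k.2 _).symm.trans (h.mem z),
    fun z w => mem_of_eq ((k.2 _).1 (h.add z w)) (by ring), fun z' => ?_, fun z => ?_, fun z => ?_⟩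
  · obtain ⟨z, hz⟩ := h.surj (μ⁻¹ * z')
    exact ⟨z, mem_of_eq ((k.2 _).1 hz) (by field_simp)⟩
  · rw [k.wp, h.wp, RingHom.coe_coe]
    field_simp
  · rw [k.dwp, h.dwp, RingHom.coe_coe]
    field_simp

theorem tq_of (h0 : μ ≠ 0) (h : Tr (σ : ℂ →+* ℂ) Λ (scl μ Λ') fun z => μ * ψ z) :
    Tq σ μ Λ Λ' ψ := by
  have k := hom_scl h0 Λ'
  refine ⟨h0, h.lat, k.symm.isLat h.lat', fun z => (k.2 _).trans (h.mem z),
    fun z w => (k.2 _).2 (mem_of_eq (h.add z w) (by ring)), fun z' => ?_, fun z => ?_, fun z => ?_⟩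
  · obtain ⟨z, hz⟩ := h.surj (μ * z')
    exact ⟨z, (k.2 _).2 (mem_of_eq hz (by ring))⟩
  · have := h.wp z
    rw [k.wp, RingHom.coe_coe] at this
    rw [← this]
    field_simp
  · have := h.dwp z
    rw [k.dwp, RingHom.coe_coe] at this
    rw [← this]
    field_simp

theorem tp_iff : Tp σ Λ Λ' ψ ↔ ∃ μ, Tq σ μ Λ Λ' ψ :=
  exists_congr fun _ => ⟨fun h => tq_of h.1 h.2, fun h => ⟨h.ne, h.tr⟩⟩

theorem Tq.tp (h : Tq σ μ Λ Λ' ψ) : Tp σ Λ Λ' ψ := tp_iff.2 ⟨μ, h⟩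

theorem tq_tr (h : Tr (σ : ℂ →+* ℂ) Λ Λ' ψ) : Tq σ 1 Λ Λ' ψ :=
  ⟨one_ne_zero, h.lat, h.lat', h.mem, h.add, h.surj, fun z => by rw [h.wp, one_pow, one_mul]; rfl,
    fun z => by rw [h.dwp, one_pow, one_mul]; rfl⟩

theorem Tq.tr1 (h : Tq σ 1 Λ Λ' ψ) : Tr (σ : ℂ →+* ℂ) Λ Λ' ψ :=
  ⟨h.lat, h.lat', h.mem, h.add, h.surj, fun z => by rw [h.wp, one_pow, one_mul]; rfl,
    fun z => by rw [h.dwp, one_pow, one_mul]; rfl⟩

theorem tp_tr (h : Tr (σ : ℂ →+* ℂ) Λ Λ' ψ) : Tp σ Λ Λ' ψ := (tq_tr h).tp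

theorem ex_tp (h : IsLat Λ) (σ : ℂ ≃+* ℂ) : ∃ Λ' ψ, Tp σ Λ Λ' ψ :=
  let ⟨Λ', ψ, k⟩ := h.exists_tr σ
  ⟨Λ', ψ, tp_tr k⟩

theorem tq_hom (h : Hom c Λ Λ') (hl : IsLat Λ) : Tq 1 c⁻¹ Λ Λ' fun z => c * z := by
  have h0 := h.1
  exact ⟨inv_ne_zero h0, hl, h.isLat hl, fun z => (h.2 z).symm,
    fun z w => mem_of_eq (zero_mem _) (by ring),
    fun z' => ⟨c⁻¹ * z', mem_of_eq (zero_mem _) (by field_simp; ring)⟩, h.wp, h.dwp⟩

theorem tp_hom (h : Hom c Λ Λ') (hl : IsLat Λ) : Tp 1 Λ Λ' fun z => c * z := (tq_hom h hl).tp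

theorem tq_cj (h : IsLat Λ) : Tq starRingAut 1 Λ (cjL Λ) conj :=
  ⟨one_ne_zero, h, h.cj, fun z => by rw [mem_cjL, Complex.conj_conj],
    fun z w => mem_of_eq (zero_mem _) (by rw [map_add]; ring),
    fun z' => ⟨conj z', mem_of_eq (zero_mem _) (by simp)⟩,
    fun z => by rw [wp_cj, one_pow, one_mul]; rfl, fun z => by rw [dwp_cj, one_pow, one_mul]; rfl⟩

theorem tp_cj (h : IsLat Λ) : Tp starRingAut Λ (cjL Λ) conj := (tq_cj h).tp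

namespace Tq

variable (h : Tq σ μ Λ Λ' ψ)
include h

theorem sub (z w : ℂ) : ψ (z - w) - (ψ z - ψ w) ∈ Λ' := by
  have := h.add (z - w) w
  rw [sub_add_cancel] at this
  exact mem_of_eq (neg_mem this) (by ring)

theorem sub_iff (z w : ℂ) : ψ z - ψ w ∈ Λ' ↔ z - w ∈ Λ := by
  rw [← h.mem]
  exact ⟨fun e => mem_of_eq (add_mem (h.sub z w) e) (by ring),
    fun e => mem_of_eq (sub_mem e (h.sub z w)) (by ring)⟩

theorem int (k : ℤ) (z : ℂ) : ψ (k * z) - k * ψ z ∈ Λ' :=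
  ((hom_scl h.ne Λ').2 _).2 (mem_of_eq (h.tr.int k z) (by ring))

theorem g23 : g2 Λ' = μ ^ 4 * σ (g2 Λ) ∧ g3 Λ' = μ ^ 6 * σ (g3 Λ) := by
  have k := hom_scl h.ne Λ'
  have h0 := h.ne
  have e := h.tr.g23
  rw [k.g2, k.g3, RingHom.coe_coe] at e
  rw [← e.1, ← e.2]
  constructor <;> field_simp

theorem congr (e : ∀ z, ψ' z - ψ z ∈ Λ') : Tq σ μ Λ Λ' ψ' := by
  refine ⟨h.ne, h.lat, h.lat', fun z => ?_, fun z w => ?_, fun z' => ?_, fun z => ?_, fun z => ?_⟩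
  · rw [← h.mem]
    exact ⟨fun k => mem_of_eq (sub_mem k (e z)) (by ring),
      fun k => mem_of_eq (add_mem k (e z)) (by ring)⟩
  · exact mem_of_eq (sub_mem (sub_mem (add_mem (h.add z w) (e (z + w))) (e z)) (e w)) (by ring)
  · obtain ⟨z, hz⟩ := h.surj z'
    exact ⟨z, mem_of_eq (add_mem hz (e z)) (by ring)⟩
  · rw [h.lat'.wp_congr (e z), h.wp]
  · rw [h.lat'.dwp_congr (e z), h.dwp]

theorem trans (h' : Tq σ' μ' Λ' Λ'' ψ') : Tq (σ' * σ) (μ' * σ' μ) Λ Λ'' fun z => ψ' (ψ z) := by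
  refine ⟨mul_ne_zero h'.ne ((map_ne_zero σ').2 h.ne), h.lat, h'.lat',
    fun z => (h'.mem _).trans (h.mem z), fun z w => ?_, fun z'' => ?_, fun z => ?_, fun z => ?_⟩
  · have := (h'.sub_iff (ψ (z + w)) (ψ z + ψ w)).2 (mem_of_eq (h.add z w) (by ring))
    exact mem_of_eq (add_mem this (h'.add (ψ z) (ψ w))) (by ring)
  · obtain ⟨z', e'⟩ := h'.surj z''
    obtain ⟨z, e⟩ := h.surj z'
    exact ⟨z, mem_of_eq (add_mem ((h'.sub_iff _ _).2 e) e') (by ring)⟩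
  · rw [h'.wp, h.wp, map_mul, map_pow, mul_pow, mul_assoc]
    rfl
  · rw [h'.dwp, h.dwp, map_mul, map_pow, mul_pow, mul_assoc]
    rfl

theorem symm : ∃ ψ', Tq σ⁻¹ (σ⁻¹ μ⁻¹) Λ' Λ ψ' ∧ (∀ z, ψ' (ψ z) - z ∈ Λ) ∧
    ∀ z, ψ (ψ' z) - z ∈ Λ' := by
  choose ψ' e using h.surj
  have h0 := h.ne
  have i : ∀ a, σ⁻¹ (σ a) = a := σ.symm_apply_apply
  refine ⟨ψ', ⟨(map_ne_zero _).2 (inv_ne_zero h0), h.lat', h.lat, fun z => ?_, fun z w => ?_,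
    fun z => ⟨ψ z, (h.sub_iff _ _).1 (e _)⟩, fun z => ?_, fun z => ?_⟩,
    fun z => (h.sub_iff _ _).1 (e _), e⟩
  · rw [← h.mem]
    exact ⟨fun k => mem_of_eq (sub_mem k (e z)) (by ring),
      fun k => mem_of_eq (add_mem k (e z)) (by ring)⟩
  · rw [sub_sub, ← h.sub_iff]
    exact mem_of_eq (sub_mem (sub_mem (sub_mem (e (z + w)) (e z)) (e w)) (h.add (ψ' z) (ψ' w)))
      (by ring)
  · rw [← h.lat'.wp_congr (e z), h.wp, ← map_pow, ← map_mul, ← mul_assoc, ← mul_pow,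
      inv_mul_cancel₀ h0, one_pow, one_mul, i]
  · rw [← h.lat'.dwp_congr (e z), h.dwp, ← map_pow, ← map_mul, ← mul_assoc, ← mul_pow,
      inv_mul_cancel₀ h0, one_pow, one_mul, i]

theorem sup (hle : Λ ≤ M) (hM : IsLat M) : ∃ M', Λ' ≤ M' ∧ Tq σ μ M M' ψ := by
  obtain ⟨n, hn, e⟩ := fin_index h.lat hM hle
  obtain ⟨M', l, t⟩ := h.tr.sup hle hn e
  have k := (hom_scl (inv_ne_zero h.ne) M').symm
  rw [inv_inv] at k
  refine ⟨scl μ⁻¹ M', fun z hz => (k.2 z).2 (l (((hom_scl h.ne Λ').2 z).1 hz)), tq_of h.ne ?_⟩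
  rwa [(hom_scl h.ne _).unique k]

omit h in
/-- the identity automorphism gives homotheties -/
theorem one (h : Tq 1 μ Λ Λ' ψ) : Hom μ⁻¹ Λ Λ' ∧ ∀ z, ψ z - μ⁻¹ * z ∈ Λ' := by
  have k := hom_scl (inv_ne_zero h.ne) Λ
  have e : scl μ⁻¹ Λ = Λ' := (k.isLat h.lat).ext_g h.lat'
    (by rw [k.g2, h.g23.1, inv_inv]; rfl) (by rw [k.g3, h.g23.2, inv_inv]; rfl)
  rw [e] at k
  refine ⟨k, fun z => ?_⟩
  by_cases hz : z ∈ Λ
  · exact sub_mem ((h.mem z).2 hz) ((k.2 z).1 hz)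
  · exact h.lat'.sub_mem_of_eq (mt (h.mem z).1 hz) (mt (k.2 z).2 hz)
      (by rw [h.wp, k.wp, inv_inv]; rfl) (by rw [h.dwp, k.dwp, inv_inv]; rfl)

theorem uniq (h' : Tq σ μ' Λ Λ'' ψ') :
    Hom (μ / μ') Λ' Λ'' ∧ ∀ z, ψ' z - μ / μ' * ψ z ∈ Λ'' := by
  obtain ⟨χ, t, e, -⟩ := h.symm
  have k := t.trans h'
  have i : σ (σ⁻¹ μ⁻¹) = μ⁻¹ := σ.apply_symm_apply _
  rw [mul_inv_cancel, i] at k
  obtain ⟨k1, k2⟩ := k.one
  rw [mul_inv, inv_inv, mul_comm, ← div_eq_mul_inv] at k1 k2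
  exact ⟨k1, fun z => mem_of_eq (sub_mem (k2 (ψ z)) ((h'.sub_iff _ _).2 (e z))) (by ring)⟩

/-- **transport of isogenies** -/
theorem hom (h' : Tq σ μ' M M' ψ') (hc : c ≠ 0) (hle : ∀ z ∈ Λ, c * z ∈ M) :
    (∀ z ∈ Λ', μ * σ c / μ' * z ∈ M') ∧ ∀ z, ψ' (c * z) - μ * σ c / μ' * ψ z ∈ M' := by
  have k := (hom_scl (inv_ne_zero hc) M).symm
  rw [inv_inv] at k
  have hl := k.symm.isLat h'.lat
  obtain ⟨N, l, t⟩ := h.sup (M := scl c⁻¹ M) (fun z hz => (k.2 z).2 (hle z hz)) hl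
  have u := t.uniq ((tq_hom k hl).trans h' |>.congr (ψ' := fun z => ψ' (c * z))
    fun z => mem_of_eq (zero_mem _) (sub_self _))
  rw [map_inv₀, show μ / (μ' * (σ c)⁻¹) = μ * σ c / μ' by
    rw [div_mul_eq_div_div_swap, div_inv_eq_mul]] at u
  exact ⟨fun z hz => (u.1.2 z).1 (l hz), u.2⟩

end Tq

namespace Tp

variable (h : Tp σ Λ Λ' ψ)
include h

theorem lat : IsLat Λ := (tp_iff.1 h).choose_spec.lat
theorem lat' : IsLat Λ' := (tp_iff.1 h).choose_spec.lat'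
theorem mem (z : ℂ) : ψ z ∈ Λ' ↔ z ∈ Λ := (tp_iff.1 h).choose_spec.mem z
theorem add (z w : ℂ) : ψ (z + w) - ψ z - ψ w ∈ Λ' := (tp_iff.1 h).choose_spec.add z w
theorem surj (z' : ℂ) : ∃ z, ψ z - z' ∈ Λ' := (tp_iff.1 h).choose_spec.surj z'
theorem sub (z w : ℂ) : ψ (z - w) - (ψ z - ψ w) ∈ Λ' := (tp_iff.1 h).choose_spec.sub z w
theorem sub_iff (z w : ℂ) : ψ z - ψ w ∈ Λ' ↔ z - w ∈ Λ := (tp_iff.1 h).choose_spec.sub_iff z w
theorem int (k : ℤ) (z : ℂ) : ψ (k * z) - k * ψ z ∈ Λ' := (tp_iff.1 h).choose_spec.int k z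

theorem lin (a b : ℤ) (z w : ℂ) : ψ (a * z + b * w) - (a * ψ z + b * ψ w) ∈ Λ' :=
  mem_of_eq (add_mem (add_mem (h.add (a * z) (b * w)) (h.int a z)) (h.int b w)) (by ring)

theorem congr (e : ∀ z, ψ' z - ψ z ∈ Λ') : Tp σ Λ Λ' ψ' := ((tp_iff.1 h).choose_spec.congr e).tp

theorem trans (h' : Tp σ' Λ' Λ'' ψ') : Tp (σ' * σ) Λ Λ'' fun z => ψ' (ψ z) :=
  ((tp_iff.1 h).choose_spec.trans (tp_iff.1 h').choose_spec).tp

theorem symm : ∃ ψ', Tp σ⁻¹ Λ' Λ ψ' ∧ (∀ z, ψ' (ψ z) - z ∈ Λ) ∧ ∀ z, ψ (ψ' z) - z ∈ Λ' :=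
  let ⟨ψ', a, b⟩ := (tp_iff.1 h).choose_spec.symm
  ⟨ψ', a.tp, b⟩

theorem homR (k : Hom c Λ' Λ'') : Tp σ Λ Λ'' fun z => c * ψ z := by
  simpa using h.trans (tp_hom k h.lat')

theorem homL (k : Hom c Λ'' Λ) : Tp σ Λ'' Λ' fun z => ψ (c * z) := by
  simpa using (tp_hom k (k.symm.isLat h.lat)).trans h

theorem sup (hle : Λ ≤ M) (hM : IsLat M) : ∃ M', Λ' ≤ M' ∧ Tp σ M M' ψ :=
  let ⟨M', a, b⟩ := (tp_iff.1 h).choose_spec.sup hle hM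
  ⟨M', a, b.tp⟩

/-- the transport of an overlattice, the image being given -/
theorem sup' (hle : Λ ≤ M) (hM : IsLat M) (hle' : Λ' ≤ M') (e : ∀ z, ψ z ∈ M' ↔ z ∈ M) :
    Tp σ M M' ψ := by
  obtain ⟨N, a, b⟩ := h.sup hle hM
  rwa [show M' = N from Submodule.ext fun z' => by
    obtain ⟨z, hz⟩ := h.surj z'
    exact ⟨fun k => mem_of_eq (sub_mem ((b.mem z).2 ((e z).1 (mem_of_eq (add_mem (hle' hz) k)
      (by ring)))) (a hz)) (by ring), fun k => mem_of_eq (sub_mem ((e z).2 ((b.mem z).1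
      (mem_of_eq (add_mem (a hz) k) (by ring)))) (hle' hz)) (by ring)⟩]

theorem uniq (h' : Tp σ Λ Λ'' ψ') : ∃ c, Hom c Λ' Λ'' ∧ ∀ z, ψ' z - c * ψ z ∈ Λ'' :=
  ⟨_, (tp_iff.1 h).choose_spec.uniq (tp_iff.1 h').choose_spec⟩

theorem hom (h' : Tp σ M M' ψ') (hc : c ≠ 0) (hle : ∀ z ∈ Λ, c * z ∈ M) :
    ∃ c', c' ≠ 0 ∧ (∀ z ∈ Λ', c' * z ∈ M') ∧ ∀ z, ψ' (c * z) - c' * ψ z ∈ M' := by
  obtain ⟨μ, h⟩ := tp_iff.1 h
  obtain ⟨μ', h'⟩ := tp_iff.1 h'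
  exact ⟨_, div_ne_zero (mul_ne_zero h.ne ((map_ne_zero σ).2 hc)) h'.ne, h.hom h' hc hle⟩

/-- **transport of complex multiplications** -/
theorem cm (hle : ∀ z ∈ Λ, c * z ∈ Λ) :
    (∀ z ∈ Λ', σ c * z ∈ Λ') ∧ ∀ z, ψ (c * z) - σ c * ψ z ∈ Λ' := by
  obtain rfl | hc := eq_or_ne c 0
  · simpa using (h.mem 0).2 (zero_mem _)
  obtain ⟨μ, h⟩ := tp_iff.1 h
  have := h.hom h hc hle
  rwa [mul_div_cancel_left₀ _ h.ne] at this

theorem cm_iff : (∀ z ∈ Λ', σ c * z ∈ Λ') ↔ ∀ z ∈ Λ, c * z ∈ Λ := by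
  obtain ⟨χ, t, -⟩ := h.symm
  refine ⟨fun e => ?_, fun e => (h.cm e).1⟩
  have := (t.cm e).1
  rwa [show σ⁻¹ (σ c) = c from σ.symm_apply_apply c] at this

theorem jL : jL Λ' = σ (jL Λ) := by
  obtain ⟨μ, h⟩ := tp_iff.1 h
  have := pow_ne_zero 12 h.ne
  rw [P004K.jL, P004K.jL, h.g23.1, h.g23.2, map_div₀, ← mul_div_mul_left (σ _) _ this]
  simp only [map_mul, map_sub, map_pow, map_ofNat]
  congr 1 <;> ring

end Tp

theorem jL_hom (h : Hom c Λ Λ') (hl : IsLat Λ) : jL Λ' = jL Λ := (tp_hom h hl).jL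

/-! ### extensions of automorphisms of `ℚ̄` -/

theorem ex_ex (g : GQ) : ∃ σ, Ex σ g := by
  have : Algebra.IsAlgebraic ℚ Qb := AlgebraicClosure.isAlgebraic ℚ
  have : Countable Qb := Cardinal.mk_le_aleph0_iff.1
    ((Algebra.IsAlgebraic.cardinalMk_le_max ℚ Qb).trans (max_le Cardinal.mk_le_aleph0 le_rfl))
  exact ext_ker Qb (io : Qb →+* ℂ) ((io : Qb →+* ℂ).comp (g : Qb →+* Qb)) fun a => by simp

theorem io_inj : Function.Injective io := (io : Qb →+* ℂ).injective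

theorem ex_io {z : ℂ} (h : IsAlgebraic ℚ z) : ∃ a, io a = z := by
  have : Algebra.IsAlgebraic ℚ Qb := AlgebraicClosure.isAlgebraic ℚ
  have h1 := (IsAlgClosed.splits ((minpoly ℚ z).map (algebraMap ℚ Qb))).mem_range_of_isRoot
    (i := (io : Qb →+* ℂ)) (Polynomial.map_ne_zero (minpoly.ne_zero h.isIntegral)) (x := z) (by
      rw [Polynomial.map_map, Subsingleton.elim ((io : Qb →+* ℂ).comp _) (algebraMap ℚ ℂ),
        Polynomial.IsRoot, Polynomial.eval_map_algebraMap, minpoly.aeval])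
  exact h1

theorem alg_io (a : Qb) : IsAlgebraic ℚ (io a) :=
  ((AlgebraicClosure.isAlgebraic ℚ).isAlgebraic a).algHom io

theorem ex_g (σ : ℂ ≃+* ℂ) : ∃ g, Ex σ g := by
  have key : ∀ σ : ℂ ≃+* ℂ, ∃ f : Qb → Qb, ∀ a, io (f a) = σ (io a) := fun σ => by
    choose f hf using fun a => ex_io ((alg_io a).algHom (σ : ℂ →+* ℂ).toRatAlgHom)
    exact ⟨f, hf⟩
  obtain ⟨f, hf⟩ := key σ
  obtain ⟨f', hf'⟩ := key σ.symm
  let e : Qb ≃+* Qb :=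
    { toFun := f
      invFun := f'
      left_inv := fun a => io_inj (by rw [hf', hf, σ.symm_apply_apply])
      right_inv := fun a => io_inj (by rw [hf, hf', σ.apply_symm_apply])
      map_mul' := fun a b => io_inj (by rw [map_mul, hf, hf, hf, map_mul, map_mul])
      map_add' := fun a b => io_inj (by rw [map_add, hf, hf, hf, map_add, map_add]) }
  exact ⟨AlgEquiv.ofRingEquiv (f := e) fun q => by simp, fun a => (hf a).symm⟩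

theorem Ex.one : Ex 1 1 := fun _ => rfl

theorem Ex.mul {g g' : GQ} (h : Ex σ g) (h' : Ex σ' g') : Ex (σ * σ') (g * g') := fun a => by
  rw [AlgEquiv.mul_apply, ← h, ← h']
  rfl

theorem Ex.inv {g : GQ} (h : Ex σ g) : Ex σ⁻¹ g⁻¹ := fun a => σ.injective (by
  rw [h, ← AlgEquiv.mul_apply, mul_inv_cancel]
  exact σ.apply_symm_apply _)

theorem Ex.pow {g : GQ} (h : Ex σ g) (n : ℕ) : Ex (σ ^ n) (g ^ n) := by
  induction n with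
  | zero => exact Ex.one
  | succ n ih => rw [pow_succ, pow_succ]; exact ih.mul h

theorem Ex.uniq {g g' : GQ} (h : Ex σ g) (h' : Ex σ g') : g = g' :=
  AlgEquiv.ext fun a => io_inj ((h a).symm.trans (h' a))

theorem Ex.JJ {K : Type} [Field K] {j : K →+* Qb} {g : GQ} (h : Ex σ g) (hg : g ∈ GK j)
    (a : NumberField.RingOfIntegers K) : σ (JJ j a) = JJ j a :=
  (h _).trans (congrArg io (hg _))

end Vale.Agent.P004K
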