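import Vale.Agent.P004K.St
import Vale.Agent.P004M.TE.Red
import Vale.Agent.P004Z.St

/-! # P004K (complex multiplication): good models, ring class fields, Heegner points (rows) -/

set_option autoImplicit false

open UpperHalfPlane NumberField CongruenceSubgroup
open scoped MatrixGroups NumberTheorySymbols Classical

noncomputable section

namespace Vale.Agent.P004K

open Vale.Agent.P022 P027H P027M.M Vale.Agent.P022.H218.L3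
open P004Z (Dat Bd Tors eps Tdiv)
open P004Z.EF (Val Par)
open P004M.TE (Pt ga)

/-! ### good models -/

/-- `j` classifies lattices up to homothety -/
def JH : Prop := ∀ Λ Λ', IsLat Λ → IsLat Λ' → (jL Λ = jL Λ' ↔ ∃ μ, Hom μ Λ Λ')

/-- the degree is a quadratic form -/
def IDX : Prop := ∀ Λ Λ', IsLat Λ → IsLat Λ' → ∃ κ : ℝ, 0 < κ ∧ ∀ c : ℂ, c ≠ 0 →
  (∀ z ∈ Λ, c * z ∈ Λ') → (dg c Λ Λ' : ℝ) = κ * Complex.normSq c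

/-- the kernel of the reduction -/
def GM0 : Prop := ∀ A Λ W, Gd A Λ W → (∀ z w, Sk A Λ W z → Sk A Λ W w → Sk A Λ W (z - w)) ∧
  ∀ z w, ¬ Sk A Λ W z → ¬ Sk A Λ W w →
    (xb A Λ W z = xb A Λ W w ↔ Sk A Λ W (z - w) ∨ Sk A Λ W (z + w))

/-- good models exist -/
def GM1 : Prop := ∀ (A : ValuationSubring ℂ) Λ, IsLat Λ → jL Λ ∈ A → ∃ μ Λ' W, Hom μ Λ Λ' ∧
  Gd A Λ' W ∧ (IsAlgebraic ℚ (jL Λ) → IsAlgebraic ℚ W.a₁ ∧ IsAlgebraic ℚ W.a₂ ∧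
    IsAlgebraic ℚ W.a₃ ∧ IsAlgebraic ℚ W.a₄ ∧ IsAlgebraic ℚ W.a₆)

/-- the reduction of an isogeny -/
def ISO : Prop := ∀ A Λ W Λ' W' (c : ℂ), Gd A Λ W → Gd A Λ' W' → c ≠ 0 → (∀ z ∈ Λ, c * z ∈ Λ') →
  (∀ z, Sk A Λ W z → Sk A Λ' W' (c * z)) ∧
  (A.valuation c = 1 ↔ ∀ z, Sk A Λ W z → c * z ∈ Λ' → z ∈ Λ) ∧
  (∃ P Q : Polynomial (IsLocalRing.ResidueField A), IsCoprime P Q ∧ P.natDegree = dg c Λ Λ' ∧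
    Q.natDegree < dg c Λ Λ' ∧ ∀ z, ¬ Sk A Λ W z →
      (Sk A Λ' W' (c * z) ↔ Q.eval (xb A Λ W z) = 0) ∧ (¬ Sk A Λ' W' (c * z) →
        xb A Λ' W' (c * z) * Q.eval (xb A Λ W z) = P.eval (xb A Λ W z))) ∧
  ((∀ z, c * z ∈ Λ' → Sk A Λ W z) → ∃ α, α ≠ 0 ∧ ∀ z u, ¬ Sk A Λ W z → ¬ Sk A Λ W u →
    ¬ Sk A Λ' W' (c * z) ∧ xb A Λ' W' (c * z) - xb A Λ' W' (c * u) =
      α * (xb A Λ W z - xb A Λ W u) ^ dg c Λ Λ')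

/-! ### ring class fields -/

/-- an integral basis `1, ω` -/
def IQ : Prop := ∀ (K : Type) [Field K] [NumberField K] (j : K →+* Qb), Iq K →
  ∃ ω : 𝓞 K, (∀ a : 𝓞 K, ∃ u v : ℤ, a = u + v * ω) ∧ 0 < (JJ j ω).im

/-- the groups -/
def RC1 : Prop := ∀ (K : Type) [Field K] [NumberField K] (j : K →+* Qb), Iq K → ∀ c, 0 < c →
  io (jc j c) = jL (Oc (JJ j) c) ∧ IsOpen (Hc j c : Set GQ) ∧ (Hc j c).Normal ∧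
  (∀ g ∈ GK j, ∀ h ∈ GK j, g * h * g⁻¹ * h⁻¹ ∈ Hc j c) ∧
  (∀ g ∉ GK j, ∀ s ∈ GK j, g * s * g⁻¹ * s ∈ Hc j c) ∧ ∀ m, 0 < m → Hc j (c * m) ≤ Hc j c

/-- the Artin symbol -/
def RC2 : Prop := ∀ (K : Type) [Field K] [NumberField K] (j : K →+* Qb), Iq K → ∀ c, 0 < c →
  (∀ I, Cop c I → ∃ g, Ar j c I g) ∧
  (∀ g ∈ GK j, ∀ M, 0 < M → ∃ I, Cop (c * M) I ∧ Ar j c I g) ∧
  (∀ I I' g g', Cop c I → Cop c I' → Ar j c I g → Ar j c I' g' → Ar j c (I * I') (g * g')) ∧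
  (∀ I g g', Ar j c I g → (Ar j c I g' ↔ g⁻¹ * g' ∈ Hc j c)) ∧
  (∀ I g, Cop c I → Ar j c I g →
    (g ∈ Hc j c ↔ ∃ (k : ℤ) (a : 𝓞 K), I = Ideal.span {k + c * a})) ∧
  (∀ m I g, 0 < m → Cop (c * m) I → Ar j (c * m) I g → Ar j c I g) ∧
  ∀ P : Ideal (𝓞 Qb), P.IsPrime → P ≠ ⊥ → (c : 𝓞 Qb) ∉ P → ∀ g ∈ GK j, ∀ k : ℕ,
    (∀ x : 𝓞 Qb, g • x - x ^ Ideal.absNorm (below j P) ^ k ∈ P) → Ar j c (below j P ^ k) g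

/-- the only units are `± 1` -/
def Upm (K : Type) [Field K] : Prop := ∀ u : (𝓞 K)ˣ, u = 1 ∨ u = -1

/-- `l` is inert (`n = l + 1`) or split (`n = l - 1`) -/
def Typ (K : Type) [Field K] (l n : ℕ) : Prop := l.Prime ∧
  (((Ideal.span {(l : 𝓞 K)}).IsPrime ∧ n = l + 1) ∨
    ((∃ I I' : Ideal (𝓞 K), I ⊔ I' = ⊤ ∧ I ≠ ⊤ ∧ I' ≠ ⊤ ∧ I * I' = Ideal.span {(l : 𝓞 K)}) ∧
      n + 1 = l))

/-- composita, total ramification -/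
def RC3 : Prop := ∀ (K : Type) [Field K] [NumberField K] (j : K →+* Qb), Iq K → Upm K →
  (∀ c c', 0 < c → 0 < c' → c.Coprime c' → Hc j (c * c') = Hc j c ⊓ Hc j c') ∧
  ∀ l n, Typ K l n → ∀ P : Ideal (𝓞 Qb), P.IsPrime → (l : 𝓞 Qb) ∈ P → ∃ t : GQ,
    (∀ x : 𝓞 Qb, t • x - x ∈ P) ∧ ∀ c, 0 < c → ¬ l ∣ c → Gen j c l n t

/-! ### Heegner points on `Y₀(N)` -/

/-- existence, field of definition, degeneracy maps -/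
def HG1 : Prop := ∀ (K : Type) [Field K] [NumberField K] (j : K →+* Qb), Iq K →
  ∀ (N c : ℕ) (I : Ideal (𝓞 K)), 0 < N → 0 < c → c.Coprime N → Cn N I →
  (∃ τ, Hp (JJ j) N I c τ) ∧
  (∀ τ τ', Hp (JJ j) N I c τ → (Hp (JJ j) N I c τ' ↔ ∃ γ ∈ Gamma0 N, γ • τ = τ')) ∧
  (∀ τ, Hp (JJ j) N I c τ → ∃ l : P004Z.Fm, l ≠ 0 ∧ P004Z.evq l τ = 0) ∧
  (∀ τ σ, ∀ g ∈ GK j, Hp (JJ j) N I c τ → Ex σ g → (g ∈ Hc j c ↔ Cj0 σ N τ τ)) ∧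
  ∀ (M : ℕ) (I' : Ideal (𝓞 K)) τ, 0 < M → c.Coprime M → Cn (N * M) (I * I') → Cn M I' →
    Hp (JJ j) (N * M) (I * I') c τ → Hp (JJ j) N I c τ ∧
      ∀ g σ (τ' : ℍ), Ar j c I' g → Ex σ g → (τ' : ℂ) = M * τ → Cj0 σ N τ τ'

/-- `T_l Φ` -/
def Tl {B : Type} [AddCommGroup B] (l : ℕ) (Φ : ℍ → B) (τ : ℍ) : B :=
  Φ (ofComplex (l * τ)) + ∑ ν ∈ Finset.range l, Φ (ofComplex ((τ + ν) / l))

/-- the Hecke neighbours -/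
def HG2 : Prop := ∀ (K : Type) [Field K] [NumberField K] (j : K →+* Qb), Iq K → Upm K →
  ∀ (N c l n : ℕ) (I : Ideal (𝓞 K)) (t : GQ) (σ : ℂ ≃+* ℂ) (τ τ' : ℍ) (w : ℕ → ℍ), 0 < N → 0 < c →
  c.Coprime N → Cn N I → l.Prime → ¬ l ∣ c * N → Gen j c l n t → Ex σ t → Hp (JJ j) N I c τ →
  Hp (JJ j) N I (c * l) τ' → (∀ i, Cj0 (σ ^ i) N τ' (w i)) →
  ∀ (B : Type) [AddCommGroup B] (Φ : ℍ → B), (∀ γ ∈ Gamma0 N, ∀ z, Φ (γ • z) = Φ z) →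
    ((Ideal.span {(l : 𝓞 K)}).IsPrime → ∑ i ∈ Finset.range n, Φ (w i) = Tl l Φ τ) ∧
    ∀ (L L' : Ideal (𝓞 K)) g g' s s' z z', L ⊔ L' = ⊤ → L ≠ ⊤ → L' ≠ ⊤ →
      L * L' = Ideal.span {(l : 𝓞 K)} → Ar j c L g → Ar j c L' g' → Ex s g → Ex s' g' →
      Cj0 s N τ z → Cj0 s' N τ z' → ∑ i ∈ Finset.range n, Φ (w i) + Φ z + Φ z' = Tl l Φ τ

/-- `a` is integral at `P` -/
def Ip (P : Ideal (𝓞 Qb)) (a : Qb) : Prop := ∃ s t : 𝓞 Qb, s ∉ P ∧ (s : Qb) * a = t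

/-- `a` vanishes at `P` -/
def Zp (P : Ideal (𝓞 Qb)) (a : Qb) : Prop := ∃ s t : 𝓞 Qb, s ∉ P ∧ t ∈ P ∧ (s : Qb) * a = t

/-- the congruence at inert primes for holomorphic modular functions -/
def CG : Prop := ∀ (K : Type) [Field K] [NumberField K] (j : K →+* Qb), Iq K →
  ∀ (N : ℕ) (I : Ideal (𝓞 K)), 0 < N → Cn N I → ∀ x ∈ MF (Gamma0 N), ∀ s, H236.L3.ExM 1 s x →
  P004Z.EF.RatS s → (∀ τ, ∃ a, Val τ x a) → ∃ M, 0 < M ∧ ∀ c l : ℕ, 0 < c → c.Coprime N →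
    l.Prime → ¬ l ∣ c * M → (Ideal.span {(l : 𝓞 K)}).IsPrime → ∀ P : Ideal (𝓞 Qb), P.IsPrime →
    (l : 𝓞 Qb) ∈ P → ∀ τ τ' a a', Hp (JJ j) N I c τ → Hp (JJ j) N I (c * l) τ' →
    Val τ x (io a) → Val τ' x (io a') → Ip P a ∧ Zp P (a' - a ^ l)

/-! ### Heegner points on `E` -/

/-- `y` is the point with parameter `z` -/
def Un {A B : ℤ} (Λ : Submodule ℤ ℂ) (z : ℂ) (y : Pt A B) : Prop := (z ∈ Λ → y = 0) ∧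
  (z ∉ Λ → ∃ a b h, y = .some a b h ∧ io a = wp Λ z ∧ io b = dwp Λ z / 2)

/-- the kernel of the reduction at `P` -/
def K1 {A B : ℤ} (P : Ideal (𝓞 Qb)) (y : Pt A B) : Prop := ∀ a b h, y = .some a b h → ¬ Ip P a

/-- calculus of `Un` -/
def UN : Prop := ∀ (A B : ℤ) Λ, IsLat Λ → g2 Λ = -4 * A → g3 Λ = -4 * B →
  (∀ y : Pt A B, ∃ z, Un Λ z y) ∧
  (∀ z z' (y y' : Pt A B), Un Λ z y → Un Λ z' y' → Un Λ (z + z') (y + y') ∧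
    (y = y' ↔ z - z' ∈ Λ)) ∧
  ∀ z (y : Pt A B) (σ : ℂ ≃+* ℂ) g φ, Un Λ z y → Ex σ g → Tr (σ : ℂ →+* ℂ) Λ Λ φ →
    Un Λ (φ z) (ga g y)

/-- **the Euler system of Heegner points** -/
def HEEG : Prop := ∀ (K : Type) [Field K] [NumberField K] (j : K →+* Qb), Iq K → Upm K →
  ∀ N G a A B w Λ F x y (I : Ideal (𝓞 K)), P004N.RN N G a → Par N a A B w Λ F x y →
  Cn N I → ∃ (Y : ℕ → Pt A B) (M : ℕ), 0 < M ∧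
    ∀ c, 0 < c → c.Coprime N →
    (∀ g σ τ τ', Ex σ g → Hp (JJ j) N I c τ → Cj0 σ N τ τ' → Un Λ (F τ') (ga g (Y c))) ∧
    (∀ g ∈ Hc j c, ga g (Y c) = Y c) ∧
    ∀ l n t, l.Prime → ¬ l ∣ c * N → Gen j c l n t →
      ((Ideal.span {(l : 𝓞 K)}).IsPrime →
        ∑ i ∈ Finset.range n, ga (t ^ i) (Y (c * l)) = a l • Y c ∧
        (¬ l ∣ M → ∀ P : Ideal (𝓞 Qb), P.IsPrime → (l : 𝓞 Qb) ∈ P → ∀ φ : GQ,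
          (∀ x : 𝓞 Qb, φ • x - x ^ l ∈ P) → K1 P (Y (c * l) - ga φ (Y c)))) ∧
      ∀ (L L' : Ideal (𝓞 K)) g g', L ⊔ L' = ⊤ → L ≠ ⊤ → L' ≠ ⊤ →
        L * L' = Ideal.span {(l : 𝓞 K)} → Ar j c L g → Ar j c L' g' →
        ∑ i ∈ Finset.range n, ga (t ^ i) (Y (c * l)) = a l • Y c - ga g (Y c) - ga g' (Y c)

/-- the support of the Heegner divisor `Bd` is one orbit -/
def BD0 : Prop := ∀ (K : Type) [Field K] [NumberField K] (j : K →+* Qb), Iq K →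
  ∀ (N : ℕ) [NeZero N] (δ δ' : ℕ) (β : ℤ) (θ η : 𝓞 K) (I : Ideal (𝓞 K)), Dat N δ δ' β →
  θ ^ 2 = -(δ' : 𝓞 K) → 0 < (JJ j θ).im → Cn N I → η ∈ I → 2 * η = θ - β →
  ∀ τ, Hp (JJ j) N I δ τ → (Bd N δ δ' β τ = 1 ∨ Bd N δ δ' β τ = -1) ∧
    ∀ z, Bd N δ δ' β z ≠ 0 ↔ ∃ g ∈ GK j, ∃ σ, Ex σ g ∧ Cj0 σ N τ z

/-- the link with the Gross-Zagier block -/
def BDL : Prop := ∀ (K : Type) [Field K] [NumberField K] (j : K →+* Qb), Iq K →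
  ∀ (N : ℕ) [NeZero N] (δ δ' : ℕ) (β : ℤ) (θ η : 𝓞 K) (I : Ideal (𝓞 K)), Dat N δ δ' β →
  θ ^ 2 = -(δ' : 𝓞 K) → 0 < (JJ j θ).im → Cn N I → η ∈ I → 2 * η = θ - β →
  ∀ a A B w Λ F x y (L : PeriodPair), Par N a A B w Λ F x y → P004N.Lat N a L →
  Tors N δ δ' β a L → ∀ Y : Pt A B,
  (∀ g σ τ τ', Ex σ g → Hp (JJ j) N I δ τ → Cj0 σ N τ τ' → Un Λ (F τ') (ga g Y)) →
  ∀ (s : GQ → ℤ) (T : Finset GQ), (∀ g (u : Qb), u ^ 2 = eps δ * δ → g u = s g * u) →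
  (∀ g ∈ T, g ∈ GK j) → (∀ g ∈ GK j, ∃! h, h ∈ T ∧ g⁻¹ * h ∈ Hc j δ) →
  IsOfFinAddOrder (∑ g ∈ T, s g • ga g Y)

end Vale.Agent.P004K
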