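import Vale.Agent.P004K.Defs
import Vale.Agent.P004Z.EF.St
import Vale.Agent.P004Z.Defs

/-! # P004K (complex multiplication): the rows -/

set_option autoImplicit false

open UpperHalfPlane NumberField CongruenceSubgroup
open scoped MatrixGroups NumberTheorySymbols

noncomputable section

namespace Vale.Agent.P004K

open Vale.Agent.P022 P027H P027M.M Vale.Agent.P022.H218.L3 Vale.Agent.P022.H236.L3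
open P004Z (Fm disc evq Zd Zp eps Ok Reps)
open P004Z.EF (Val RatS Par)

/-- conjugates exist -/
def TRX : Prop := ∀ (σ : ℂ ≃+* ℂ) (M : ℕ), 0 < M → (∃ k, Cy σ M k) ∧
  ∀ k, Cy σ M k → IsCoprime k (M : ℤ) ∧ ∀ τ, ∃ τ', Cj σ M k τ τ'

/-- values of modular functions at conjugate points -/
def TRV : Prop := ∀ (X : Mdl) (σ : ℂ ≃+* ℂ) (g : GQ) (M : ℕ) (k : ℤ) (τ τ' : ℍ), 0 < M → Ex σ g →
  Cy σ M k → Cj σ M k τ τ' → ∀ f ∈ L (Gamma M), ∀ c, Val τ (cv f) c →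
    Val τ' (cv (X.gal g f)) (σ c)

/-- the same on `X₀(N)` -/
def TR0 : Prop := ∀ (σ : ℂ ≃+* ℂ) (N : ℕ) (τ τ' : ℍ), 0 < N → Cj0 σ N τ τ' →
  ∀ x ∈ MF (Gamma0 N), ∀ s, ExM 1 s x → RatS s → ∀ c, Val τ x c → Val τ' x (σ c)

/-- calculus of `Cj0` -/
def CJ0 : Prop := ∀ (σ : ℂ ≃+* ℂ) (N : ℕ), 0 < N → (∀ τ, ∃ τ', Cj0 σ N τ τ') ∧
  (∀ M k τ τ', 0 < M → N ∣ M → Cj σ M k τ τ' → Cj0 σ N τ τ') ∧
  (∀ τ τ' τ'', Cj0 σ N τ τ' → (Cj0 σ N τ τ'' ↔ ∃ γ ∈ Gamma0 N, γ • τ' = τ'')) ∧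
  (∀ τ τ', Cj0 σ N τ τ' → Cj0 σ⁻¹ N τ' τ) ∧
  (∀ σ' τ τ' τ'', Cj0 σ N τ τ' → Cj0 σ' N τ' τ'' → Cj0 (σ' * σ) N τ τ'') ∧
  (∀ τ, Cj0 1 N τ τ) ∧
  ∀ τ τ' : ℍ, (τ' : ℂ) = -(starRingEnd ℂ) τ → Cj0 starRingAut N τ τ'

/-- the modular parametrisation commutes with `Aut ℂ` -/
def PI : Prop := ∀ N a A B w Λ I x y, 0 < N → Par N a A B w Λ I x y → I ∈ Hol →
  ∀ (σ : ℂ ≃+* ℂ) (φ : ℂ → ℂ), Tr (σ : ℂ →+* ℂ) Λ Λ φ → ∀ τ τ', Cj0 σ N τ τ' →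
    φ (I τ) - I τ' ∈ Λ

/-- transport of quadratic forms -/
def FT : Prop := ∀ (σ : ℂ ≃+* ℂ) (M : ℕ) (k : ℤ) (τ τ' : ℍ), 0 < M → Cj σ M k τ τ' →
  ∃ e : {l : Fm // evq l τ = 0} ≃ {l : Fm // evq l τ' = 0}, ∀ l, disc (e l).1 = disc l.1 ∧
    (M : ℤ) ∣ k * (e l).1.1 - l.1.1 ∧ (2 * M : ℤ) ∣ (e l).1.2.1 - l.1.2.1 ∧
    (M : ℤ) ∣ (e l).1.2.2 - k * l.1.2.2 ∧
    σ (2 * l.1.1 * τ + l.1.2.1) = 2 * (e l).1.1 * τ' + (e l).1.2.1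

/-- conjugates of the twisted Heegner divisors -/
def ZG : Prop := ∀ (N : ℕ) [NeZero N] (δ : ℕ), Ok N δ → ∀ (σ : ℂ ≃+* ℂ) (k : ℤ) (τ τ' : ℍ),
  Cy σ δ k → Cj0 σ N τ τ' → ∀ (n : ℕ) (r : ZMod (2 * N)) (θ : ℂ), θ ^ 2 = -((δ : ℂ) * n) →
    Zd N δ n r τ' = J(k | δ) * Zd N δ n r τ ∧
    (σ θ = θ → Zp N δ n r τ' = J(k | δ) * Zp N δ n r τ) ∧
    (σ θ = -θ → Zp N δ n r τ' = J(k | δ) * eps δ * Zp N δ n (-r) τ)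

/-- sums over conjugate divisors -/
def SUM : Prop := ∀ (σ : ℂ ≃+* ℂ) (N : ℕ) (A A' : ℍ → ℤ) (s s' : Finset ℍ), 0 < N →
  Reps (Gamma0 N) A s → Reps (Gamma0 N) A' s' → (∀ τ τ', Cj0 σ N τ τ' → A' τ' = A τ) →
  ∀ (B : Type) [AddCommGroup B] (Φ Φ' : ℍ → B), (∀ τ τ', Cj0 σ N τ τ' → Φ' τ' = Φ τ) →
    ∑ z ∈ s', A' z • Φ' z = ∑ z ∈ s, A z • Φ z

/-- values at CM points are algebraic -/
def ALG : Prop := ∀ (τ : ℍ) (l : Fm), l ≠ 0 → evq l τ = 0 → ∀ x ∈ FS, ∀ c, Val τ x c →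
  IsAlgebraic ℚ c

/-- singular moduli are integral -/
def INT : Prop := ∀ (τ : ℍ) (l : Fm), l ≠ 0 → evq l τ = 0 → IsIntegral ℤ (jL (lat τ))

/-- **the main theorem of complex multiplication** at every prime: `k = 0` inertia, `k = 1`
Frobenius -/
def MT : Prop := ∀ (K : Type) [Field K] [NumberField K] (j : K →+* Qb), Iq K →
  ∀ (σ : ℂ ≃+* ℂ) (g : GK j), Ex σ g → ∀ P : Ideal (𝓞 Qb), P.IsPrime → P ≠ ⊥ → ∀ k : ℕ,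
  (∀ x : 𝓞 Qb, (g : GQ) • x - x ^ Ideal.absNorm (below j P) ^ k ∈ P) →
  ∀ (c : ℕ) (Λ : Submodule ℤ ℂ), (c : 𝓞 K) ∉ below j P → KL (JJ j) c Λ →
  ∃ ψ, Tp σ Λ (st (JJ j) (below j P ^ k) Λ) ψ ∧
    ∀ z, (∃ a ∉ below j P, JJ j a * z ∈ Λ) → ψ z - z ∈ st (JJ j) (below j P ^ k) Λ

end Vale.Agent.P004K
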