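import Vale.Agent.P004K.Bas
import Vale.Agent.P004K.St
import Vale.Agent.P027M.M.Pre0

/-! # P004K: the lattices `ℤ τ + ℤ`, the calculus of `Cj` and `Cj0` -/

set_option autoImplicit false

open UpperHalfPlane CongruenceSubgroup
open scoped MatrixGroups ComplexConjugate

noncomputable section

namespace Vale.Agent.P004K

open Vale.Agent.P022 P027H P027M.M

variable {σ σ' : ℂ ≃+* ℂ} {τ τ' τ'' : ℍ} {c : ℂ} {M N : ℕ} {k k' : ℤ} {Λ : Submodule ℤ ℂ}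

theorem one_lat (τ : ℍ) : (1 : ℂ) ∈ lat τ := mem_lat.2 ⟨0, 1, by simp⟩

theorem tau_lat (τ : ℍ) : (τ : ℂ) ∈ lat τ := mem_lat.2 ⟨1, 0, by simp⟩

theorem lin_lat (τ : ℍ) (a b : ℤ) : (a : ℂ) * τ + b ∈ lat τ := mem_lat.2 ⟨a, b, rfl⟩

theorem div_lat (hN : 0 < N) {a b : ℤ} :
    ((a : ℂ) * τ + b) / N ∈ lat τ ↔ (N : ℤ) ∣ a ∧ (N : ℤ) ∣ b := by
  have := zt_mem (τ := τ) (v := ![a, b]) hN
  rwa [NZ, not_not, Fin.forall_fin_two] at this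

theorem div_lat' (hN : 0 < N) {b : ℤ} : (b : ℂ) / N ∈ lat τ ↔ (N : ℤ) ∣ b := by
  simpa using div_lat (τ := τ) (a := 0) (b := b) hN

theorem lin_inj {a b a' b' : ℤ} (h : (a : ℂ) * τ + b = a' * τ + b') : a = a' ∧ b = b' := by
  obtain ⟨h1, h2⟩ := int_indep τ (s := (a - a' : ℤ)) (t := (b - b' : ℤ)) (by
    push_cast; linear_combination h)
  have h3 : a - a' = 0 := by exact_mod_cast h1
  have h4 : b - b' = 0 := by exact_mod_cast h2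
  omega

theorem den_ne (γ : SL(2, ℤ)) (τ : ℍ) : ((γ 1 0 : ℂ) * τ + γ 1 1) ≠ 0 := by
  have := denom_ne_zero (γ : GL (Fin 2) ℝ) τ
  rwa [ModularGroup.denom_apply] at this

theorem coe_smul (γ : SL(2, ℤ)) (τ : ℍ) :
    ((γ 1 0 : ℂ) * τ + γ 1 1) * (γ • τ : ℍ) = (γ 0 0 : ℂ) * τ + γ 0 1 := by
  have e : ((γ • τ : ℍ) : ℂ) = ((γ 0 0 : ℂ) * τ + γ 0 1) / ((γ 1 0 : ℂ) * τ + γ 1 1) := by
    rw [specialLinearGroup_apply]
    simp
  rw [e, mul_div_cancel₀ _ (den_ne γ τ)]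

theorem hom_smul (γ : SL(2, ℤ)) (τ : ℍ) :
    Hom ((γ 1 0 : ℂ) * τ + γ 1 1) (lat (γ • τ)) (lat τ) := by
  have e := coe_smul γ τ
  have hd : (γ 0 0 : ℂ) * γ 1 1 - γ 0 1 * γ 1 0 = 1 := by exact_mod_cast det_eq γ
  refine ⟨den_ne γ τ, fun z => ?_⟩
  rw [mem_lat, mem_lat]
  constructor
  · rintro ⟨m, n, rfl⟩
    exact ⟨m * γ 0 0 + n * γ 1 0, m * γ 0 1 + n * γ 1 1, by
      push_cast; linear_combination (-m : ℂ) * e⟩
  · rintro ⟨m, n, h⟩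
    refine ⟨m * γ 1 1 - n * γ 1 0, n * γ 0 0 - m * γ 0 1, mul_left_cancel₀ (den_ne γ τ) ?_⟩
    push_cast
    linear_combination h + ((m : ℂ) * γ 1 1 - n * γ 1 0) * e + ((m : ℂ) * τ + n) * hd

/-- homothetic lattices come from equivalent points -/
theorem hom_lat (h : Hom c (lat τ) (lat τ')) : ∃ γ : SL(2, ℤ), γ • τ' = τ ∧
    c = γ 1 0 * τ' + γ 1 1 ∧ c * τ = γ 0 0 * τ' + γ 0 1 := by
  have c0 := h.1
  obtain ⟨a, b, e1⟩ := mem_lat.1 ((h.2 _).1 (tau_lat τ))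
  obtain ⟨p, q, e2⟩ := mem_lat.1 ((h.2 _).1 (one_lat τ))
  obtain ⟨a', b', e3⟩ := mem_lat.1 ((h.symm.2 _).1 (tau_lat τ'))
  obtain ⟨p', q', e4⟩ := mem_lat.1 ((h.symm.2 _).1 (one_lat τ'))
  have i := mul_inv_cancel₀ c0
  obtain ⟨f1, f2⟩ := lin_inj (τ := τ') (a := a' * a + b' * p) (b := a' * b + b' * q) (a' := 1)
    (b' := 0) (by push_cast; linear_combination a' * e1 + b' * e2 + c * e3 + τ' * i)
  obtain ⟨f3, f4⟩ := lin_inj (τ := τ') (a := p' * a + q' * p) (b := p' * b + q' * q) (a' := 0)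
    (b' := 1) (by push_cast; linear_combination p' * e1 + q' * e2 + c * e4 + i)
  have d : (a * q - b * p) * (a' * q' - b' * p') = 1 := by
    linear_combination (p' * b + q' * q) * f1 + f4 - (p' * a + q' * p) * f2
  have e5 : (τ : ℂ) * (Complex.normSq c : ℝ) = (a * τ' + b) * conj ((p : ℂ) * τ' + q) := by
    rw [e1, e2, mul_one, ← Complex.mul_conj]
    ring
  have e6 := congrArg Complex.im e5
  simp only [Complex.mul_im, Complex.ofReal_re, Complex.ofReal_im, Complex.add_re, Complex.add_im,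
    Complex.mul_re, Complex.conj_re, Complex.conj_im, Complex.intCast_re, Complex.intCast_im,
    coe_im, coe_re] at e6
  have pos : (0 : ℝ) < ((a * q - b * p : ℤ) : ℝ) := by
    have h1 := mul_pos τ.im_pos (Complex.normSq_pos.2 c0)
    refine pos_of_mul_pos_left (b := τ'.im) (lt_of_lt_of_eq h1 ?_) τ'.im_pos.le
    push_cast
    linear_combination e6
  have d1 : a * q - b * p = 1 := Int.eq_one_of_mul_eq_one_right (by exact_mod_cast pos.le) d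
  rw [mul_one] at e2
  let γ : SL(2, ℤ) := ⟨!![a, b; p, q], by rw [Matrix.det_fin_two_of, d1]⟩
  refine ⟨γ, UpperHalfPlane.ext (mul_left_cancel₀ c0 ?_), e2.symm, e1.symm⟩
  rw [← e1, ← e2]
  exact coe_smul γ τ'

/-- every lattice is homothetic to some `ℤ τ + ℤ` -/
theorem ex_lat (h : IsLat Λ) : ∃ c τ, Hom c (lat τ) Λ := by
  obtain ⟨L, rfl⟩ := h
  have key : ∀ u v : ℂ, v ≠ 0 → 0 < (u / v).im → (∀ z, z ∈ L.lattice ↔
      ∃ m n : ℤ, m * u + n * v = z) → ∃ c τ, Hom c (lat τ) L.lattice := fun u v v0 h e =>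
    ⟨v, ⟨u / v, h⟩, v0, fun z => by
      rw [mem_lat, e]
      refine exists₂_congr fun m n => ?_
      rw [← mul_right_inj' v0, coe_mk, mul_add, ← mul_assoc, mul_comm v m, mul_assoc,
        mul_div_cancel₀ _ v0, mul_comm v n]⟩
  have i := LinearIndependent.pair_iff.1 L.indep
  have v0 : L.ω₂ ≠ 0 := fun e => one_ne_zero (i 0 1 (by simp [e])).2
  rcases lt_trichotomy (L.ω₁ / L.ω₂).im 0 with h | h | h
  · refine key (-L.ω₁) L.ω₂ v0 (by rw [neg_div, Complex.neg_im]; linarith) fun z => ?_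
    rw [PeriodPair.mem_lattice]
    constructor <;> rintro ⟨m, n, rfl⟩ <;> exact ⟨-m, n, by push_cast; ring⟩
  · refine absurd (i 1 (-(L.ω₁ / L.ω₂).re) ?_).1 one_ne_zero
    have : ((L.ω₁ / L.ω₂).re : ℂ) = L.ω₁ / L.ω₂ := Complex.ext rfl (by simp [h])
    rw [one_smul, Complex.real_smul, Complex.ofReal_neg, this, neg_mul, div_mul_cancel₀ _ v0,
      add_neg_cancel]
  · exact key _ _ v0 h fun z => PeriodPair.mem_lattice

open ModularForm Real in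
theorem jL_lat (τ : ℍ) : jL (lat τ) = H218.L3.jf τ := by
  have e : lat τ = (P014G.mkPP 1 one_ne_zero τ).lattice := by
    ext z
    rw [mem_lat, PeriodPair.mem_lattice]
    simp [P014G.mkPP]
  have hπ : (π : ℂ) ≠ 0 := by exact_mod_cast Real.pi_ne_zero
  have hΔ := discriminant_ne_zero τ
  rw [jL, e, g2_lat, g3_lat, P014G.g2_mk, P014G.g3_mk, H218.L3.jf]
  rw [discriminant_eq_E₄_cube_sub_E₆_sq] at hΔ ⊢
  have h1 : E₄ τ ^ 3 - E₆ τ ^ 2 ≠ 0 := fun h => hΔ (by simp [h])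
  rw [show ((1 ^ 4)⁻¹ * (4 * π ^ 4 / 3 * E₄ τ)) ^ 3 - 27 * ((1 ^ 6)⁻¹ * (8 * π ^ 6 / 27 * E₆ τ)) ^ 2 =
    64 * (π : ℂ) ^ 12 / 27 * (E₄ τ ^ 3 - E₆ τ ^ 2) by ring]
  field_simp
  ring

/-! ### roots of unity -/

theorem ze_eq (hM : 0 < M) : ze M k = ze M k' ↔ (M : ℤ) ∣ k - k' := by
  have z : ze M 1 ≠ 0 := Complex.exp_ne_zero _
  rw [← (Pre.ze_prim hM).zpow_eq_one_iff_dvd, Pre.ze_pow M k, Pre.ze_pow M k', zpow_sub₀ z,
    div_eq_one_iff_eq (zpow_ne_zero _ z)]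

theorem ze_mul (hM : 0 < M) (hN : 0 < N) (k : ℤ) : ze (M * N) (N * k) = ze M k := by
  have : (M : ℂ) ≠ 0 := by exact_mod_cast hM.ne'
  have : (N : ℂ) ≠ 0 := by exact_mod_cast hN.ne'
  rw [ze, ze]
  congr 1
  push_cast
  field_simp

theorem Cy.zpow (h : Cy σ M k) (a : ℤ) : σ (ze M a) = ze M (a * k) := by
  rw [Pre.ze_pow M a, map_zpow₀, h, Pre.ze_pow M k, Pre.ze_pow M (a * k), ← zpow_mul, mul_comm]

theorem ex_cy (σ : ℂ ≃+* ℂ) (hM : 0 < M) : ∃ k, Cy σ M k := by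
  have : NeZero M := ⟨hM.ne'⟩
  obtain ⟨i, -, hi⟩ := (Pre.ze_prim hM).eq_pow_of_pow_eq_one
    ((Pre.ze_prim hM).map_of_injective σ.injective).pow_eq_one
  exact ⟨i, by rw [Cy, Pre.ze_pow M i, zpow_natCast, hi]⟩

theorem cop_of (hN : 0 < N) (h : ∀ m : ℤ, (N : ℤ) ∣ m * k → (N : ℤ) ∣ m) : IsCoprime k (N : ℤ) := by
  obtain ⟨a, ha⟩ := Int.gcd_dvd_left k N
  obtain ⟨b, hb⟩ := Int.gcd_dvd_right k N
  have b0 : b ≠ 0 := by
    rintro rfl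
    omega
  obtain ⟨u, hu⟩ := h b ⟨a, by linear_combination b * ha - a * hb⟩
  refine Int.isCoprime_iff_gcd_eq_one.2 (Int.natCast_dvd_natCast.1 ⟨u, ?_⟩ |> Nat.dvd_one.1)
  exact mul_left_cancel₀ b0 (by push_cast; linear_combination hu + u * hb)

theorem Cy.cop (h : Cy σ M k) (hM : 0 < M) : IsCoprime k (M : ℤ) := cop_of hM fun m hm => by
  have e := h.zpow m
  have z : ze M 0 = 1 := by simp [ze]
  rw [(ze_eq (k := m * k) (k' := 0) hM).2 (by rwa [sub_zero]), z, map_eq_one_iff _ σ.injective, ← z,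
    ze_eq hM, sub_zero] at e
  exact e

theorem Cy.uniq (h : Cy σ M k) (h' : Cy σ M k') (hM : 0 < M) : (M : ℤ) ∣ k - k' :=
  (ze_eq hM).1 (h.symm.trans h')

theorem Cy.down (h : Cy σ (M * N) k) (hM : 0 < M) (hN : 0 < N) : Cy σ M k := by
  rw [Cy, ← ze_mul hM hN, ← ze_mul hM hN k, h.zpow, mul_one]

theorem Cy.cyc {g : GQ} (h : Cy σ M k) (e : Ex σ g) : P027M.M.Cyc M g k := fun a ha => by
  rw [← e, ha, h]

/-! ### `Cj` -/

theorem Cj.down (h : Cj σ (M * N) k τ τ') (hM : 0 < M) (hN : 0 < N) (e : (M : ℤ) ∣ k - k') :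
    Cj σ M k' τ τ' := by
  have : (M : ℂ) ≠ 0 := by exact_mod_cast hM.ne'
  have : (N : ℂ) ≠ 0 := by exact_mod_cast hN.ne'
  obtain ⟨ψ, t, h1, h2⟩ := h
  have k1 := t.int N (τ / (M * N : ℕ))
  have k2 := t.int N (1 / (M * N : ℕ))
  rw [show ((N : ℤ) : ℂ) * (τ / (M * N : ℕ)) = τ / M by push_cast; field_simp] at k1
  rw [show ((N : ℤ) : ℂ) * (1 / (M * N : ℕ)) = 1 / M by push_cast; field_simp] at k2
  exact ⟨ψ, t, mem_of_eq (add_mem k1 (nat_mul_mem N h1)) (by push_cast; field_simp; ring),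
    mem_of_eq (add_mem (add_mem k2 (nat_mul_mem N h2)) ((div_lat' hM).2 e))
      (by push_cast; field_simp; ring)⟩

theorem Cj.zt (h : Cj σ M k τ τ') : ∃ ψ, Tp σ (lat τ) (lat τ') ψ ∧
    ∀ v, ψ (zt M v τ) - zt M ![v 0, k * v 1] τ' ∈ lat τ' := by
  obtain ⟨ψ, t, h1, h2⟩ := h
  refine ⟨ψ, t, fun v => ?_⟩
  have e := t.lin (v 0) (v 1) (τ / M) (1 / M)
  rw [show (v 0 : ℂ) * (τ / M) + v 1 * (1 / M) = P027M.M.zt M v τ by rw [P027M.M.zt]; ring] at e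
  exact mem_of_eq (add_mem (add_mem e (int_mul_mem (v 0) h1)) (int_mul_mem (v 1) h2)) (by
    simp only [P027M.M.zt, Matrix.cons_val_zero, Matrix.cons_val_one]; push_cast; ring)

/-- uniqueness of the source -/
theorem Cj.src (h : Cj σ M k τ τ'') (h' : Cj σ M k τ' τ'') (hM : 0 < M) :
    ∃ γ ∈ Gamma M, γ • τ' = τ := by
  obtain ⟨ψ, t, h1, h2⟩ := h
  obtain ⟨ψ', t', h1', h2'⟩ := h'
  obtain ⟨χ, s, e, -⟩ := t'.symm
  have u := t.trans s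
  rw [inv_mul_cancel] at u
  obtain ⟨c, hc, e'⟩ := (tp_hom (Hom.refl _) (isLat τ)).uniq u
  obtain ⟨γ, g1, g2, g3⟩ := hom_lat hc
  have f : ∀ z w, ψ z - ψ' w ∈ lat τ'' → c * z - w ∈ lat τ' := fun z w h =>
    mem_of_eq (add_mem (sub_mem ((s.sub_iff _ _).2 h) (e' z)) (e w)) (by ring)
  have f1 := f _ _ (mem_of_eq (sub_mem h1 h1') (by ring))
  have f2 := f _ _ (mem_of_eq (sub_mem h2 h2') (by ring))
  obtain ⟨a1, a2⟩ := (div_lat (a := γ 0 0 - 1) (b := γ 0 1) hM).1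
    (mem_of_eq f1 (by push_cast; linear_combination (-(M : ℂ)⁻¹) * g3))
  obtain ⟨a3, a4⟩ := (div_lat (a := γ 1 0) (b := γ 1 1 - 1) hM).1
    (mem_of_eq f2 (by push_cast; linear_combination (-(M : ℂ)⁻¹) * g2))
  rw [← ZMod.intCast_zmod_eq_zero_iff_dvd] at a1 a2 a3 a4
  push_cast at a1 a4
  exact ⟨γ, Gamma_mem.2 ⟨sub_eq_zero.1 a1, a2, a3, sub_eq_zero.1 a4⟩, g1⟩

theorem Cj.cj0 (h : Cj σ M k τ τ') (hM : 0 < M) (d : N ∣ M) : Cj0 σ N τ τ' := by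
  obtain ⟨m, rfl⟩ := d
  obtain ⟨ψ, t, -, h2⟩ := h.down (Nat.pos_of_mul_pos_right hM) (Nat.pos_of_mul_pos_left hM)
    (k' := k) (by simp)
  exact ⟨ψ, t, k, h2⟩

/-! ### `Cj0` -/

theorem cop0 {ψ : ℂ → ℂ} (t : Tp σ (lat τ) (lat τ') ψ) (hN : 0 < N)
    (h : ψ (1 / N) - k / N ∈ lat τ') : IsCoprime k (N : ℤ) := cop_of hN fun m hm => by
  refine (div_lat' (τ := τ) hN).1 (mem_of_eq ((t.mem (m * (1 / N))).1 (mem_of_eq (add_mem (add_mem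
    (t.int m (1 / N)) (int_mul_mem m h)) ((div_lat' hN).2 hm)) ?_)) (by ring))
  push_cast
  ring

theorem mem_G0 {γ : SL(2, ℤ)} : γ ∈ Gamma0 N ↔ (N : ℤ) ∣ γ 1 0 := by
  rw [Gamma0_mem, ZMod.intCast_zmod_eq_zero_iff_dvd]

theorem Cj0.symm (h : Cj0 σ N τ τ') (hN : 0 < N) : Cj0 σ⁻¹ N τ' τ := by
  have : (N : ℂ) ≠ 0 := by exact_mod_cast hN.ne'
  obtain ⟨ψ, t, a, h⟩ := h
  obtain ⟨b, m, e⟩ := cop0 t hN h
  have e' : (b : ℂ) * a + m * N = 1 := by exact_mod_cast e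
  obtain ⟨χ, s, u, -⟩ := t.symm
  have h1 : 1 / N - b * ψ (1 / N) ∈ lat τ' := mem_of_eq (sub_mem (lin_lat τ' 0 m) (int_mul_mem b h))
    (by push_cast; field_simp; linear_combination -e')
  exact ⟨χ, s, b, mem_of_eq (add_mem (add_mem ((s.sub_iff _ _).2 h1) (s.int b _))
    (int_mul_mem b (u (1 / N)))) (by ring)⟩

theorem Cj0.trans (h : Cj0 σ N τ τ') (h' : Cj0 σ' N τ' τ'') : Cj0 (σ' * σ) N τ τ'' := by
  obtain ⟨ψ, t, a, h⟩ := h
  obtain ⟨ψ', t', b, h'⟩ := h'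
  rw [div_eq_mul_one_div (a : ℂ)] at h
  exact ⟨_, t.trans t', a * b, mem_of_eq (add_mem (add_mem ((t'.sub_iff _ _).2 h) (t'.int a _))
    (int_mul_mem a h')) (by push_cast; ring)⟩

theorem cj0_one (hN : 0 < N) : Cj0 1 N τ τ' ↔ ∃ γ ∈ Gamma0 N, γ • τ' = τ := by
  constructor
  · rintro ⟨ψ, t, a, h⟩
    obtain ⟨c, hc, e⟩ := (tp_hom (Hom.refl _) (isLat τ)).uniq t
    obtain ⟨γ, g1, g2, -⟩ := hom_lat hc
    exact ⟨γ, mem_G0.2 ((div_lat (b := γ 1 1 - a) hN).1 (mem_of_eq (sub_mem h (e (1 / N)))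
      (by push_cast; linear_combination (-(N : ℂ)⁻¹) * g2))).1, g1⟩
  · rintro ⟨γ, hγ, rfl⟩
    exact ⟨_, tp_hom (hom_smul γ τ') (isLat _), γ 1 1, mem_of_eq
      ((div_lat (b := 0) hN).2 ⟨mem_G0.1 hγ, dvd_zero _⟩) (by push_cast; ring)⟩

theorem Cj0.refl (hN : 0 < N) (τ : ℍ) : Cj0 1 N τ τ := (cj0_one hN).2 ⟨1, one_mem _, one_smul _ _⟩

theorem Cj0.tgt (h : Cj0 σ N τ τ') (hN : 0 < N) :
    Cj0 σ N τ τ'' ↔ ∃ γ ∈ Gamma0 N, γ • τ' = τ'' := by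
  rw [← cj0_one hN]
  exact ⟨fun h' => by simpa using (h'.symm hN).trans h,
    fun h' => by simpa using h.trans (h'.symm hN)⟩

theorem Cj0.src (h : Cj0 σ N τ τ'') (hN : 0 < N) :
    Cj0 σ N τ' τ'' ↔ ∃ γ ∈ Gamma0 N, γ • τ = τ' := by
  rw [← cj0_one hN]
  exact ⟨fun h' => by simpa using h'.trans (h.symm hN), fun h' => by simpa using h'.trans h⟩

theorem cj0_conj (h : (τ' : ℂ) = -conj (τ : ℂ)) : Cj0 starRingAut N τ τ' := by
  have e : cjL (lat τ) = lat τ' := by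
    ext z
    rw [mem_cjL, mem_lat, mem_lat, h]
    constructor
    · rintro ⟨m, n, e⟩
      exact ⟨-m, n, by simpa using congrArg conj e⟩
    · rintro ⟨m, n, rfl⟩
      exact ⟨-m, n, by simp⟩
  exact ⟨conj, e ▸ tp_cj (isLat τ), 1, by simp⟩

/-- existence of conjugates on `Y₀(N)`, directly -/
theorem Cj0.jf (h : Cj0 σ N τ τ') : H218.L3.jf τ' = σ (H218.L3.jf τ) := by
  obtain ⟨ψ, t, -⟩ := h
  rw [← jL_lat, ← jL_lat, t.jL]

end Vale.Agent.P004K
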