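import Vale.Agent.P027M.M.All1
import Vale.Agent.P022K.F0.Cf.Der
import Vale.Agent.P022K.F0.Twb

/-! # P004K: automorphisms of `ℂ` permute the points of `Y(N)` -/

set_option autoImplicit false

open UpperHalfPlane CongruenceSubgroup Polynomial
open scoped MatrixGroups IntermediateField

noncomputable section

namespace Vale.Agent.P004K

open Vale.Agent.P022 P027M.M Vale.Agent.P022.H218.L3 Vale.Agent.P022.H236.L3
  Vale.Agent.P022.H542.L3
open Vale.Agent.P022K.F0.Cf (od ev Reg jm Mo ac)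
open Vale.Agent.P022K.F0 Vale.Agent.P019P

theorem int_mem {F : Type*} [Field F] (V : ValuationSubring F) {p : F[X]} (hp : p.Monic)
    (h : ∀ n, p.coeff n ∈ V) {x : F} (e : p.eval x = 0) : x ∈ V := by
  obtain ⟨q, h1, -, h2⟩ := lifts_and_natDegree_eq_and_monic
    ((p.lifts_iff_coeff_lifts (f := algebraMap V F)).2 fun n => ⟨⟨_, h n⟩, rfl⟩) hp
  obtain ⟨y, rfl⟩ := IsIntegrallyClosed.isIntegral_iff (R := V) (K := F).1
    (⟨q, h2, by rw [← eval_map, h1, e]⟩ : IsIntegral V x)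
  exact y.2

/-- the extensions of a discrete valuation are conjugate -/
theorem place {F : Type*} [Field F] [Algebra ℂ F] (H : Subgroup (F ≃ₐ[ℂ] F)) [Finite H]
    (V W : ValuationSubring F) (cV : ∀ a, algebraMap ℂ F a ∈ V) (cW : ∀ a, algebraMap ℂ F a ∈ W)
    (h : ∀ x, (∀ g ∈ H, g x = x) → x ∈ W → x ∈ V) {u : F} (hu : ∀ g ∈ H, g u = u) (uV : u⁻¹ ∉ V)
    (uW : ∀ x ∉ W, (u * x)⁻¹ ∈ W) : ∃ g ∈ H, ∀ x ∈ V, g x ∈ W := by
  have := Fintype.ofFinite H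
  have key : ∀ x, (∀ g ∈ H, g x ∈ W) → x ∈ V := fun x hx => by
    refine int_mem V (MulSemiringAction.monic_charpoly H x) (fun n => h _ (fun g hg =>
      MulSemiringAction.smul_coeff_charpoly x n (⟨g, hg⟩ : H)) ?_)
      (MulSemiringAction.eval_charpoly H x)
    have : MulSemiringAction.charpoly H x ∈ liftsRing W.subtype := prod_mem fun g _ =>
      sub_mem (X_mem_lifts _) (C'_mem_lifts ⟨⟨_, hx g g.2⟩, rfl⟩)
    obtain ⟨y, hy⟩ := (lifts_iff_coeff_lifts _).1 this n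
    exact hy ▸ y.2
  let sm : ∀ U : ValuationSubring F, (∀ a, algebraMap ℂ F a ∈ U) → Submodule ℂ F := fun U hU =>
    { carrier := U
      add_mem' := add_mem
      zero_mem' := zero_mem U
      smul_mem' := fun a x hx => by rw [Algebra.smul_def]; exact mul_mem (hU a) hx }
  by_contra! hn
  obtain ⟨x, hx⟩ := Submodule.exists_forall_notMem_of_forall_ne_top
    (fun g : H => (sm W cW).comap (g.1.toLinearMap ∘ₗ (sm V cV).subtype)) fun g e => by
      obtain ⟨x, h1, h2⟩ := hn g g.2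
      exact h2 (e.ge (Submodule.mem_top (x := (⟨x, h1⟩ : sm V cV))))
  have x0 : (x : F) ≠ 0 := fun e => hx 1 (show (x : F) ∈ W from e ▸ zero_mem W)
  have := mul_mem (key (u * x)⁻¹ fun g hg => by
    rw [map_inv₀, map_mul, hu g hg]
    exact uW _ (hx ⟨g, hg⟩)) (show (x : F) ∈ V from x.2)
  rw [mul_inv, inv_mul_cancel_right₀ x0] at this
  exact uV this

theorem ord_comap {F K : Type*} [Field F] [Field K] {O : ValuationSubring K} {f : K → ℤ}
    (h : IsOrd O f) (φ : F →+* K) (u : F) (hu : f (φ u) = 1) : IsOrd (O.comap φ) fun x => f (φ x) :=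
  ⟨by rw [map_zero, h.zero], fun x y hx hy => by
    rw [map_mul, h.mul _ _ ((map_ne_zero φ).2 hx) ((map_ne_zero φ).2 hy)], fun x y hx hy e => by
    rw [map_add]
    exact h.add _ _ ((map_ne_zero φ).2 hx) ((map_ne_zero φ).2 hy)
      (map_add φ x y ▸ (map_ne_zero φ).2 e),
    fun x => by rw [ValuationSubring.mem_comap, h.mem, map_eq_zero], u, hu⟩

open AuxCVal in
/-- the same for the rational function field -/
theorem place' {F : Type*} [Field F] [Algebra ℂ F] (H : Subgroup (F ≃ₐ[ℂ] F)) [Finite H]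
    {V W : ValuationSubring F} {v w : F → ℤ} (hv : IsOrd V v) (hw : IsOrd W w) {t : F} {b : ℂ}
    (h : ∀ x, (∀ g ∈ H, g x = x) → ∃ p q : ℂ[X], x = aeval t p / aeval t q)
    (ht : ∀ g ∈ H, g t = t) (cv : ∀ a, v (algebraMap ℂ F a) = 0) (cw : ∀ a, w (algebraMap ℂ F a) = 0)
    (t0 : ∀ a, t - algebraMap ℂ F a ≠ 0)
    (tv : ∀ a, v (t - algebraMap ℂ F a) = if b = a then 1 else 0)
    (tw : ∀ a, w (t - algebraMap ℂ F a) = if b = a then 1 else 0) :
    ∃ g ∈ H, ∀ x, w (g x) = v x := by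
  have m : ∀ x y, v x = w x → v y = w y → v (x * y) = w (x * y) := fun x y hx hy => by
    obtain rfl | x0 := eq_or_ne x 0
    · rwa [zero_mul]
    obtain rfl | y0 := eq_or_ne y 0
    · rwa [mul_zero]
    rw [hv.mul _ _ x0 y0, hw.mul _ _ x0 y0, hx, hy]
  have k : ∀ p : ℂ[X], v (aeval t p) = w (aeval t p) := fun p => by
    induction IsAlgClosed.splits p using Submonoid.closure_induction with
    | mem p hp =>
      rcases hp with ⟨a, rfl⟩ | ⟨a, rfl⟩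
      · rw [aeval_C, cv, cw]
      · rw [← sub_neg_eq_add, ← C_neg, map_sub, aeval_X, aeval_C, tv, tw]
    | one => rw [map_one, ord_one hv, ord_one hw]
    | mul p q _ _ hp hq => rw [map_mul, m _ _ hp hq]
  have u0 := t0 b
  have uv := (tv b).trans (if_pos rfl)
  have uw := (tw b).trans (if_pos rfl)
  have hu : ∀ g ∈ H, g (t - algebraMap ℂ F b) = t - algebraMap ℂ F b := fun g hg => by
    rw [map_sub, ht g hg, g.commutes]
  generalize t - algebraMap ℂ F b = u at u0 uv uw hu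
  obtain ⟨g, hg, e⟩ := place H V W (fun a => (hv.mem _).2 (.inr (cv a).ge))
    (fun a => (hw.mem _).2 (.inr (cw a).ge)) (fun x hx => by
      obtain ⟨p, q, rfl⟩ := h x hx
      rw [hv.mem, hw.mem, div_eq_mul_inv, m _ _ (k p)]
      · exact id
      obtain z | z := eq_or_ne (aeval t q) 0
      · rw [z, inv_zero, hv.zero, hw.zero]
      · rw [ord_inv hv z, ord_inv hw z, k]) hu
    (by rw [hv.mem, ord_inv hv u0, uv]; simpa using u0) fun x hx => by
      rw [hw.mem, not_or] at hx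
      rw [hw.mem, ord_inv hw (mul_ne_zero u0 hx.1), hw.mul _ _ u0 hx.1, uw]
      omega
  refine ⟨g, hg, fun x => ?_⟩
  obtain rfl | x0 := eq_or_ne x 0
  · rw [map_zero, hv.zero, hw.zero]
  have s0 := zpow_ne_zero (-v x) u0
  have z0 := mul_ne_zero x0 s0
  have a : v (x * u ^ (-v x)) = 0 := by rw [hv.mul _ _ x0 s0, ord_zpow hv u0, uv]; ring
  have b1 := ((hw.mem _).1 (e _ ((hv.mem _).2 (.inr a.ge)))).resolve_left ((map_ne_zero g).2 z0)
  have b2 := ((hw.mem _).1 (e _⁻¹ ((hv.mem _).2 (.inr (by rw [ord_inv hv z0, a, neg_zero]))))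
    ).resolve_left ((map_ne_zero g).2 (inv_ne_zero z0))
  rw [map_inv₀, ord_inv hw ((map_ne_zero g).2 z0)] at b2
  rw [map_mul, map_zpow₀, hu g hg, hw.mul _ _ ((map_ne_zero g).2 x0) s0, ord_zpow hw u0, uw]
    at b1 b2
  omega

instance : Mo SL(2, ℤ) := ⟨fun g => ⟨g, fun _ => rfl⟩⟩

theorem od_act (γ : SL(2, ℤ)) (τ : ℍ) (x : Mer) : od τ (act γ x) = od (γ⁻¹ • τ) x := by
  rw [← Cf.od_ac (γ⁻¹ • τ) x γ, smul_inv_smul]
  rfl

theorem ev_act (γ : SL(2, ℤ)) (τ : ℍ) (x : Mer) : ev τ (act γ x) = ev (γ⁻¹ • τ) x := by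
  rw [← Cf.ev_ac (γ⁻¹ • τ) x γ, smul_inv_smul]
  rfl

theorem reg_act (γ : SL(2, ℤ)) (τ : ℍ) (x : Mer) : Reg τ (act γ x) ↔ Reg (γ⁻¹ • τ) x := by
  rw [← Cf.reg_ac (a := γ⁻¹ • τ) γ, smul_inv_smul]
  rfl

section

variable {Γ : Subgroup SL(2, ℤ)} {x : Mer} {γ : SL(2, ℤ)} (hx : x ∈ MF Γ) (hγ : γ ∈ Γ) (τ : ℍ)
include hx hγ

theorem od_MF : od (γ • τ) x = od τ x := by
  rw [← inv_inv γ, ← od_act, act_eq_self hx (inv_mem hγ)]

theorem ev_MF : ev (γ • τ) x = ev τ x := by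
  rw [← inv_inv γ, ← ev_act, act_eq_self hx (inv_mem hγ)]

theorem reg_MF : Reg (γ • τ) x ↔ Reg τ x := by
  rw [← inv_inv γ, ← reg_act, act_eq_self hx (inv_mem hγ)]

end

variable {σ : ℂ ≃+* ℂ} {n N : ℕ} {x y y' : Mer} {τ τ' : ℍ}

theorem aut_uniq (hn : 0 < n) (h : IsAut n σ x y) (h' : IsAut n σ x y') : y = y' := by
  obtain ⟨s, a, b⟩ := h
  obtain ⟨s', a', b'⟩ := h'
  obtain rfl := a.unique hn.ne' a'
  exact exp.1 n _ _ _ hn b b'

theorem aut_symm (h : IsAut n σ x y) : IsAut n σ⁻¹ y x :=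
  let ⟨s, a, b⟩ := h
  ⟨_, b, (cm_symm σ s).symm ▸ a⟩

theorem aut_zero (hn : 0 < n) (h : IsAut n σ x y) : y = 0 ↔ x = 0 := by
  have z : ∀ σ, IsAut n σ 0 0 := fun σ => by simpa using Bc.aut_const n σ 0
  exact ⟨fun e => aut_uniq hn (aut_symm (e ▸ h)) (z _), fun e => aut_uniq hn (e ▸ h) (z _)⟩

theorem cm_sb (σ : ℂ ≃+* ℂ) {m : ℕ} (hm : 0 < m) (s : LS) :
    cm σ (sb m hm s) = sb m hm (cm σ s) := by
  ext i
  by_cases hd : (m : ℤ) ∣ i
  · obtain ⟨k, rfl⟩ := hd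
    rw [coeff_cm, coeff_sb_mul, coeff_sb_mul, coeff_cm]
  · rw [coeff_cm, coeff_sb_of_not_dvd _ _ _ _ hd, coeff_sb_of_not_dvd _ _ _ _ hd,
      map_zero]

theorem aut_up (hn : 0 < n) (h : IsAut n σ x y) {m : ℕ} (hm : 0 < m) : IsAut (n * m) σ x y :=
  let ⟨_, a, b⟩ := h
  ⟨_, exM_period hm hn.ne' a, cm_sb σ hm _ ▸ exM_period hm hn.ne' b⟩

/-- the semilinear automorphism of a field of modular functions -/
theorem ex_aut (hn : 0 < n) {F : IntermediateField ℂ Mer}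
    (h : ∀ σ, ∀ x ∈ F, ∃ y ∈ F, IsAut n σ x y) (σ : ℂ ≃+* ℂ) :
    ∃ c : F ≃+* F, ∀ x : F, IsAut n σ x (c x) := by
  choose f m e using h
  exact ⟨{ toFun := fun x => ⟨f σ x x.2, m ..⟩
           invFun := fun x => ⟨f σ⁻¹ x x.2, m ..⟩
           left_inv := fun x => Subtype.ext (aut_uniq hn (e ..) (aut_symm (e ..)))
           right_inv := fun x => Subtype.ext (aut_uniq hn (e ..) (aut_symm (e σ⁻¹ ..)))
           map_mul' := fun x y => Subtype.ext (aut_uniq hn (e ..) (Bc.aut_mul (e ..) (e ..)))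
           map_add' := fun x y => Subtype.ext (aut_uniq hn (e ..) (Bc.aut_add (e ..) (e ..))) },
    fun x => e ..⟩

/-- `σ` maps the place `τ` of `F` to the place `τ'` -/
def Rl (σ : ℂ ≃+* ℂ) (n : ℕ) (F : IntermediateField ℂ Mer) (τ τ' : ℍ) : Prop :=
  ∀ x ∈ F, ∀ y ∈ F, IsAut n σ x y → od τ' y = od τ x ∧ ev τ' y = σ (ev τ x)

theorem Rl.symm {F : IntermediateField ℂ Mer} (h : Rl σ n F τ τ') : Rl σ⁻¹ n F τ' τ :=
  fun y hy x hx e =>
    let ⟨a, b⟩ := h x hx y hy (aut_symm e)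
    ⟨a.symm, by rw [b]; exact (σ.symm_apply_apply _).symm⟩

theorem rl_of (hn : 0 < n) {F : IntermediateField ℂ Mer}
    (h : ∀ x ∈ F, ∀ y ∈ F, IsAut n σ x y → od τ' y = od τ x) : Rl σ n F τ τ' := by
  have R : ∀ x ∈ F, ∀ y ∈ F, IsAut n σ x y → (Reg τ' y ↔ Reg τ x) := fun x hx y hy e => by
    rw [Cf.reg_iff, Cf.reg_iff, h x hx y hy e, aut_zero hn e]
  refine fun x hx y hy e => ⟨h x hx y hy e, ?_⟩
  by_cases r : Reg τ x
  · have e2 := Bc.aut_add e (Bc.aut_const n σ (-ev τ x))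
    have m : ∀ {x} a, x ∈ F → x + algebraMap ℂ Mer a ∈ F := fun a h => add_mem h (F.algebraMap_mem a)
    have r' := ((R x hx y hy e).2 r)
    have e3 := Cf.ev_add r' (Cf.reg_const _ (σ (-ev τ x)))
    have e4 := Cf.ev_add r (Cf.reg_const _ (-ev τ x))
    rw [Cf.ev_const] at e3 e4
    rw [← sub_eq_zero, sub_eq_add_neg, ← map_neg, ← e3]
    obtain z | z := eq_or_ne (y + algebraMap ℂ Mer (σ (-ev τ x))) 0
    · rw [z, Cf.ev_zero]
    rw [Cf.ev_eq_zero z (r'.add (Cf.reg_const ..)), h _ (m _ hx) _ (m _ hy) e2,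
      ← Cf.ev_eq_zero (mt (aut_zero hn e2).2 z) (r.add (Cf.reg_const ..)), e4, add_neg_cancel]
  · rw [ev, ev, dif_neg r, dif_neg (mt (R x hx y hy e).1 r), map_zero]

theorem od_sub {P : ℍ → ℂ} (hP : P ∈ Hol) (h : deriv (P ∘ ofComplex) (τ : ℂ) ≠ 0) (a : ℂ) :
    inc P hP - algebraMap ℂ Mer a ≠ 0 ∧
      od τ (inc P hP - algebraMap ℂ Mer a) = if P τ = a then 1 else 0 := by
  have e : inc P hP - algebraMap ℂ Mer a = jm (⟨P, hP⟩ - algebraMap ℂ Hol a) := by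
    rw [jm, map_sub, ← Cf.jm_const]
    rfl
  have d : Cf.DM (inc P hP - algebraMap ℂ Mer a) = jm (Cf.dH ⟨P, hP⟩) := by
    rw [map_sub, Derivation.map_algebraMap, sub_zero]
    exact Cf.DM_jm _
  have d0 : (Cf.dH ⟨P, hP⟩).1 τ ≠ 0 := h
  have n0 : inc P hP - algebraMap ℂ Mer a ≠ 0 := fun z => Cf.jm_ne' d0 (by rw [← d, z, map_zero])
  refine ⟨n0, ?_⟩
  split_ifs with h1
  · have p : 0 < od τ (inc P hP - algebraMap ℂ Mer a) := by
      rw [e] at n0 ⊢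
      exact (Cf.od_jm_pos fun z => n0 (by rw [z, jm, map_zero])).2 (sub_eq_zero.2 h1)
    have := Cf.od_D p.ne'
    rw [d, Cf.od_unit d0] at this
    omega
  · rw [e]
    exact Cf.od_unit (sub_ne_zero.2 h1)

theorem aut_t (X : Mdl) (hN : Lv N) (σ : ℂ ≃+* ℂ) : IsAut N σ (cv X.t) (cv X.t) := by
  obtain ⟨g, hg⟩ := Bc.exists_g σ
  have := Bc.aut_gal X exp (x_galx X) grp hN hg (X.tL (grp N hN).2.2.1.hi).2
  rwa [show ((X.tL (grp N hN).2.2.1.hi : L _) : FF) = X.t from rfl, (x_galx X).2.2.1] at this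

theorem ex_autG (hN : Lv N) (σ : ℂ ≃+* ℂ) : ∀ x ∈ MF (Gt N), ∃ y ∈ MF (Gt N), IsAut N σ x y := by
  obtain ⟨g, k, -, -, -, h, -⟩ := x_autc σ N hN
  intro x hx
  obtain ⟨y, hy, e⟩ := h x hx
  exact ⟨y, hy, by simpa using e 1 1 (by simp [Tw])⟩

/-- **the conjugate place is a point** -/
theorem trc (hN : Lv N) (σ : ℂ ≃+* ℂ) (τ : ℍ) : ∃ τ', Rl σ N (MF (Gt N)) τ τ' := by
  obtain ⟨X⟩ := mdl
  obtain ⟨fi, hn, m1, -⟩ := grp N hN
  obtain ⟨c, hc⟩ := ex_aut hN.pos (ex_autG hN) σ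
  obtain ⟨P, hP, e, dP, h2, su⟩ := X.hol
  obtain ⟨τ₁, e1⟩ := su (σ (P τ)) (fun h => (h2 τ).1 (σ.injective (h.trans (map_ofNat σ 2).symm)))
    fun h => (h2 τ).2 (σ.injective (h.trans (by rw [map_neg, map_ofNat])))
  obtain ⟨t, ht⟩ : ∃ t : MF (Gt N), (t : Mer) = cv X.t := ⟨cvL _ (X.tL m1.hi), rfl⟩
  have ct : c t = t := Subtype.ext (aut_uniq hN.pos (hc t) (ht ▸ aut_t X hN σ))
  have cc : ∀ a, c (algebraMap ℂ _ a) = algebraMap ℂ _ (σ a) := fun a =>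
    Subtype.ext (aut_uniq hN.pos (hc _) (Bc.aut_const N σ a))
  have o : ∀ (τ : ℍ) a, t - algebraMap ℂ _ a ≠ 0 ∧
      od τ (t - algebraMap ℂ _ a : MF (Gt N)) = if P τ = a then 1 else 0 := fun τ a => by
    have := od_sub hP (dP τ) a
    rw [← e, ← ht] at this
    exact ⟨fun z => this.1 (congrArg Subtype.val z), this.2⟩
  have cs : ∀ a, c.symm (t - algebraMap ℂ _ (σ a)) = t - algebraMap ℂ _ a := fun a => by
    rw [c.symm_apply_eq, map_sub, ct, cc]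
  have := finite_range (Γ := G0) fun γ _ => hn γ
  obtain ⟨_, ⟨γ, rfl⟩, hγ⟩ := place' (resAct (Γ := G0) fun γ _ => hn γ).range
    (ord_comap (Cf.isOrd_pl τ) ((MF (Gt N)).subtype.comp c.symm) (t - algebraMap ℂ _ (σ (P τ)))
      ((congrArg (fun z : MF (Gt N) => od τ z) (cs _)).trans ((o τ _).2.trans (if_pos rfl))))
    (ord_comap (Cf.isOrd_pl τ₁) (MF (Gt N)).subtype (t - algebraMap ℂ _ (P τ₁))
      ((o τ₁ _).2.trans (if_pos rfl))) (t := t) (b := P τ₁)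
    (fun x hx => by
      have h1 : (x : Mer) ∈ MF G0 := mem_MF_of_fixed _ x.2 fun γ hγ =>
        congrArg Subtype.val (hx _ ⟨⟨γ, hγ⟩, rfl⟩)
      rw [X.baseC, ← ht, IntermediateField.mem_adjoin_simple_iff] at h1
      obtain ⟨p, q, hx⟩ := h1
      exact ⟨p, q, Subtype.ext (hx.trans (congrArg₂ _ (aeval_algHom_apply (MF (Gt N)).val t p)
        (aeval_algHom_apply (MF (Gt N)).val t q)))⟩)
    (by
      rintro _ ⟨γ, rfl⟩
      exact Subtype.ext (ht ▸ (X.tL le_rfl).2 _ γ.2 : act γ (t : Mer) = t))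
    (fun a => by
      obtain ⟨a, rfl⟩ := σ.surjective a
      exact (congrArg (fun z : MF (Gt N) => od τ z) (c.symm_apply_eq.2 (cc a).symm)).trans
        (Cf.od_const τ a))
    (Cf.od_const τ₁) (fun a => (o τ a).1)
    (fun a => by
      obtain ⟨a, rfl⟩ := σ.surjective a
      refine (congrArg (fun z : MF (Gt N) => od τ z) (cs _)).trans ((o τ _).2.trans ?_)
      simp only [e1, σ.injective.eq_iff])
    fun a => (o τ₁ a).2
  refine ⟨γ.1⁻¹ • τ₁, rl_of hN.pos fun x hx y hy h => ?_⟩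
  obtain rfl := aut_uniq hN.pos (hc ⟨x, hx⟩) h
  exact (od_act ..).symm.trans ((hγ (c ⟨x, hx⟩)).trans
    (congrArg (fun z : MF (Gt N) => od τ z) (c.symm_apply_apply _)))

end Vale.Agent.P004K
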