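import Vale.Agent.P004K.Lt
import Vale.Agent.P004K.Pl

/-! # P004K: the rows `TRX TRV TR0 CJ0 PI ALG` -/

set_option autoImplicit false

open UpperHalfPlane CongruenceSubgroup Filter Topology
open scoped MatrixGroups

noncomputable section

namespace Vale.Agent.P004K

open Vale.Agent.P022 P027H P027M.M Vale.Agent.P022.H218.L3 Vale.Agent.P022.H236.L3
  Vale.Agent.P022.H542.L3
open Vale.Agent.P022K.F0.Cf (od ev Reg jm)
open Vale.Agent.P022K.F0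
open P004Z.EF (Val RatS Par)

variable {σ : ℂ ≃+* ℂ} {τ τ' : ℍ} {M N : ℕ} {k : ℤ} {v : Fin 2 → ℤ} {x y : Mer} {c : ℂ}

theorem val_iff : Val τ x c ↔ Reg τ x ∧ ev τ x = c := P022K.Sh.mval_iff

theorem cv_r (X : Mdl) (hN : Lv N) (hv : NZ N v) : cv (X.r N v) = rM N v :=
  exp.1 N _ _ _ hN.pos (Galx.rex1 X hN hv) (by simpa using Pre.rex hN hv 1)

/-- the function `r_v` -/
def rf (N : ℕ) (v : Fin 2 → ℤ) (τ : ℍ) : ℂ :=
  (wp (lat τ) (zt N v τ) - wp (lat τ) (zt N (p1 N) τ)) /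
    (wp (lat τ) (zt N (p4 N) τ) - wp (lat τ) (zt N (p1 N) τ))

theorem den_r (hN : Lv N) (τ : ℍ) :
    wp (lat τ) (zt N (p4 N) τ) - wp (lat τ) (zt N (p1 N) τ) ≠ 0 := fun e => by
  have := Pre.Af_ne τ
  rw [Pre.Af_eq hN, Wf, xv, xv, ← mul_sub, e, mul_zero] at this
  exact this rfl

theorem val_r (hN : Lv N) (hv : NZ N v) (τ : ℍ) : Val τ (rM N v) (rf N v τ) := by
  have h0 : Wf N (p4 N) (p1 N) τ ≠ 0 := Pre.Af_eq hN ▸ Pre.Af_ne τ
  refine ⟨⟨_, Pre.Wf_hol hN.pos hv (Pre.nz1 hN)⟩, ⟨_, Pre.Wf_hol hN.pos (Pre.nz4 hN) (Pre.nz1 hN)⟩,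
    h0, by rw [Pre.rM_eq hN hv]; exact div_mul_cancel₀ _ (Cf.jm_ne' h0), ?_⟩
  have := den_r hN τ
  show Wf .. = _ * Wf ..
  rw [rf, Wf, Wf, xv, xv, xv]
  field_simp

theorem aut_r (hN : Lv N) (h : Cy σ N k) (hv : NZ N v) :
    IsAut N σ (rM N v) (rM N ![v 0, k * v 1]) := by
  obtain ⟨X⟩ := mdl
  obtain ⟨g, hg⟩ := ex_g σ
  have := Bc.aut_gal X exp (x_galx X) grp hN hg (z := X.r N v)
    (X.gen N hN ▸ IntermediateField.subset_adjoin _ _ ⟨v, hv, rfl⟩)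
  rwa [(x_galx X).2.2.2.1 N hN g k (h.cyc hg) v hv, cv_r X hN hv,
    cv_r X hN (Galx.nz_tw (h.cop hN.pos) hv)] at this

theorem wp_eq {Λ : Submodule ℤ ℂ} (h : IsLat Λ) {z w : ℂ} (hz : z ∉ Λ) (hw : w ∉ Λ)
    (e : wp Λ z = wp Λ w) : ∃ ε : ℤ, (ε = 1 ∨ ε = -1) ∧ z - ε * w ∈ Λ := by
  by_cases h1 : z - w ∈ Λ
  · exact ⟨1, .inl rfl, by simpa using h1⟩
  by_cases h2 : z + w ∈ Λ
  · exact ⟨-1, .inr rfl, by simpa using h2⟩
  exact absurd e (h.wp_ne hz hw h1 h2)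

theorem root2 {Λ : Submodule ℤ ℂ} (h : IsLat Λ) {z : ℂ} (hz : z ∉ Λ) (h2 : 2 * z ∈ Λ) :
    4 * wp Λ z ^ 3 - g2 Λ * wp Λ z - g3 Λ = 0 := by
  rw [← h.ode hz, (h.dwp_eq_zero hz).2 h2, zero_pow two_ne_zero]

/-- the values of the generators determine the conjugate point -/
theorem cj_of (hN : Lv N) (hk : IsCoprime k (N : ℤ))
    (h : ∀ v, NZ N v → rf N ![v 0, k * v 1] τ' = σ (rf N v τ)) : Cj σ N k τ τ' := by
  obtain ⟨Λ, φ, T⟩ := (isLat τ).exists_tr σ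
  have T := tq_tr T
  have N0 := hN.pos
  have nm : ∀ {v} τ, NZ N v → zt N v τ ∉ lat τ := fun τ hv e => (zt_mem N0).1 e hv
  obtain ⟨α, β, α0, e⟩ : ∃ α β : ℂ, α ≠ 0 ∧ ∀ v, NZ N v →
      wp (lat τ') (zt N ![v 0, k * v 1] τ') = α * wp Λ (φ (zt N v τ)) + β := by
    have d := (map_ne_zero σ).2 (den_r hN τ)
    have d' := den_r hN τ'
    have a := div_ne_zero d' d
    generalize hα : (_ / _ : ℂ) = α at a
    refine ⟨α, wp (lat τ') (zt N (p1 N) τ') - α * σ (wp (lat τ) (zt N (p1 N) τ)), a,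
      fun v hv => ?_⟩
    have := h v hv
    rw [rf, rf, map_div₀, div_eq_iff d', map_sub σ (wp _ (zt N v τ))] at this
    rw [T.wp, ← hα]
    linear_combination this
  have r : ∀ v, NZ N v → (N : ℤ) ∣ 2 * v 0 ∧ (N : ℤ) ∣ 2 * v 1 →
      12 * α ^ 2 * β * wp Λ (φ (zt N v τ)) ^ 2 + (12 * α * β ^ 2 - α * g2 (lat τ') + α ^ 3 * g2 Λ) *
        wp Λ (φ (zt N v τ)) + (4 * β ^ 3 - β * g2 (lat τ') - g3 (lat τ') + α ^ 3 * g3 Λ) = 0 :=
    fun v hv h2 => by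
      have a := root2 T.lat' (mt (T.mem _).1 (nm τ hv)) (mem_of_eq (sub_mem
        ((T.mem ((2 : ℤ) * zt N v τ)).2 (mem_of_eq ((div_lat N0).2 h2)
          (by rw [zt]; push_cast; ring))) (T.int 2 (zt N v τ))) (by ring))
      have b := root2 (isLat τ') (nm τ' (Galx.nz_tw hk hv)) (mem_of_eq
        ((div_lat N0).2 ⟨h2.1, h2.2.mul_left k⟩) (by
          simp only [zt, Matrix.cons_val_zero, Matrix.cons_val_one]; push_cast; ring))
      rw [e v hv] at b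
      linear_combination b - α ^ 3 * a
  have ne : ∀ v w, NZ N v → NZ N w → NZ N (v - w) → NZ N (v + w) →
      wp Λ (φ (zt N v τ)) ≠ wp Λ (φ (zt N w τ)) := fun v w hv hw h1 h2 => by
    rw [T.wp, T.wp, one_pow, one_mul, one_mul, σ.injective.ne_iff]
    exact (isLat τ).wp_ne (nm τ hv) (nm τ hw) (zt_sub N v w τ ▸ nm τ h1) (zt_add N v w τ ▸ nm τ h2)
  obtain ⟨m, rfl⟩ := hN.four
  have e2 : ((4 * m / 2 : ℕ) : ℤ) = 2 * m := by omega
  have nz : ∀ a b : ℤ, Odd a ∨ Odd b → NZ (4 * m) ![a * (2 * m), b * (2 * m)] := fun a b h z => by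
    have key : ∀ a : ℤ, Odd a → ¬ ((4 * m : ℕ) : ℤ) ∣ a * (2 * m) := by
      rintro _ ⟨a, rfl⟩ ⟨u, hu⟩
      have : (2 * m : ℤ) * (2 * (u - a) - 1) = 0 := by push_cast at hu; linear_combination -hu
      rcases mul_eq_zero.1 this with h | h <;> omega
    exact h.elim (fun h => key a h (z 0)) fun h => key b h (z 1)
  have dv : ∀ a : ℤ, ((4 * m : ℕ) : ℤ) ∣ 2 * (a * (2 * m)) := fun a => ⟨a, by push_cast; ring⟩
  have ne' : ∀ a b a' b' : ℤ, Odd a ∨ Odd b → Odd a' ∨ Odd b' → Odd (a - a') ∨ Odd (b - b') →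
      Odd (a + a') ∨ Odd (b + b') → wp Λ (φ (zt (4 * m) ![a * (2 * m), b * (2 * m)] τ)) ≠
        wp Λ (φ (zt (4 * m) ![a' * (2 * m), b' * (2 * m)] τ)) := fun a b a' b' h h' h1 h2 =>
    ne _ _ (nz _ _ h) (nz _ _ h') (by simpa [sub_mul] using nz _ _ h1)
      (by simpa [add_mul] using nz _ _ h2)
  obtain ⟨q1, q2, q3⟩ := quad3 (ne' 0 1 1 0 (by decide) (by decide) (by decide) (by decide))
    (ne' 0 1 1 1 (by decide) (by decide) (by decide) (by decide))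
    (ne' 1 0 1 1 (by decide) (by decide) (by decide) (by decide))
    (r _ (nz _ _ (by decide)) ⟨dv _, dv _⟩) (r _ (nz _ _ (by decide)) ⟨dv _, dv _⟩)
    (r _ (nz _ _ (by decide)) ⟨dv _, dv _⟩)
  obtain rfl : β = 0 := by simpa [α0] using q1
  obtain ⟨μ, rfl⟩ := IsAlgClosed.exists_pow_nat_eq α two_pos
  have μ0 : μ ≠ 0 := fun z => α0 (by simp [z])
  have H := hom_scl (inv_ne_zero μ0) Λ
  rw [(H.isLat T.lat').ext_g (isLat τ')
    (by rw [H.g2, inv_inv]; exact mul_left_cancel₀ α0 (by linear_combination q2))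
    (by rw [H.g3, inv_inv]; linear_combination q3)] at H
  have t := T.tp.homR H
  have s : ∀ v, NZ (4 * m) v → ∃ ε : ℤ, (ε = 1 ∨ ε = -1) ∧
      μ⁻¹ * φ (zt (4 * m) v τ) - ε * zt (4 * m) ![v 0, k * v 1] τ' ∈ lat τ' := fun v hv =>
    wp_eq (isLat τ') (mt (t.mem _).1 (nm τ hv)) (nm τ' (Galx.nz_tw hk hv))
      (by rw [e v hv, H.wp, inv_inv, add_zero])
  have n1 : ¬ ((4 * m : ℕ) : ℤ) ∣ 1 := fun h => by
    have := Int.le_of_dvd one_pos h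
    omega
  obtain ⟨a, ha, s1⟩ := s ![1, 0] fun z => n1 (z 0)
  obtain ⟨b, hb, s2⟩ := s ![0, 1] fun z => n1 (z 1)
  obtain ⟨c, hc, s3⟩ := s (![1, 0] + ![0, 1]) fun z => n1 (z 1)
  rw [zt_add] at s3
  obtain ⟨d1, d2⟩ := (div_lat (a := c - a) (b := (c - b) * k) N0).1 (mem_of_eq (add_mem (add_mem
    (sub_mem (t.add (zt (4 * m) ![1, 0] τ) (zt (4 * m) ![0, 1] τ)) s3) s1) s2) (by simp [zt]; ring))
  have d3 := hk.symm.dvd_of_dvd_mul_right d2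
  have d4 : ∀ {u : ℤ}, ((4 * m : ℕ) : ℤ) ∣ u → (4 : ℤ) ∣ u := fun h =>
    (Dvd.intro (m : ℤ) (by push_cast; ring)).trans h
  obtain rfl : a = b := by
    have := d4 d1
    have := d4 d3
    omega
  have a2 : (a : ℂ) * a = 1 := by rcases ha with rfl | rfl <;> simp
  refine ⟨_, t.homR (c := a) ⟨left_ne_zero_of_mul_eq_one a2, fun z => ⟨int_mul_mem a, fun h =>
    mem_of_eq (int_mul_mem a h) (by linear_combination -z * a2)⟩⟩, ?_, ?_⟩
  · refine mem_of_eq (int_mul_mem a s1) ?_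
    simp [zt]
    linear_combination (τ' / (4 * m) : ℂ) * a2
  · refine mem_of_eq (int_mul_mem a s2) ?_
    simp [zt]
    linear_combination (k / (4 * m) : ℂ) * a2

theorem Rl.cj (hN : Lv N) (h : Rl σ N (MF (Gt N)) τ τ') (hk : Cy σ N k) : Cj σ N k τ τ' :=
  cj_of hN (hk.cop hN.pos) fun v hv => by
    have hv' := Galx.nz_tw (hk.cop hN.pos) hv
    rw [← (val_iff.1 (val_r hN hv τ)).2, ← (val_iff.1 (val_r hN hv' τ')).2]
    exact (h _ (Pre.rM_mem hN hv) _ (Pre.rM_mem hN hv') (aut_r hN hk hv)).2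

theorem lv4 (hM : 0 < M) : Lv (M * 4) := ⟨by omega, dvd_mul_left 4 M⟩

theorem trx : TRX := fun σ M hM => ⟨ex_cy σ hM, fun k hk => ⟨hk.cop hM, fun τ => by
  obtain ⟨τ', h⟩ := trc (lv4 hM) σ τ
  obtain ⟨k', hk'⟩ := ex_cy σ (lv4 hM).pos
  exact ⟨τ', (h.cj (lv4 hM) hk').down hM four_pos ((hk'.down hM four_pos).uniq hk hM)⟩⟩⟩

theorem ex_cj0 (σ : ℂ ≃+* ℂ) (hN : 0 < N) (τ : ℍ) : ∃ τ', Cj0 σ N τ τ' :=
  let ⟨k, hk⟩ := ex_cy σ hN
  let ⟨τ', h⟩ := ((trx σ N hN).2 k hk).2 τ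
  ⟨τ', h.cj0 hN dvd_rfl⟩

theorem cj0 : CJ0 := fun σ _ hN => ⟨ex_cj0 σ hN, fun _ _ _ _ hM d h => h.cj0 hM d,
  fun _ _ _ h => h.tgt hN, fun _ _ h => h.symm hN, fun _ _ _ _ => Cj0.trans, Cj0.refl hN,
  fun _ _ => cj0_conj⟩

theorem gt_fix (h : ∀ γ ∈ Gamma M, act γ x = x) : ∀ γ ∈ Gt (M * N), act γ x = x := fun γ hγ => by
  obtain ⟨e, he, h1, h2, h3, h4⟩ := H231.L3.mem_Gp'.1 hγ
  rw [← ZMod.intCast_zmod_eq_zero_iff_dvd] at h1 h2 h3 h4
  rcases mul_self_eq_one_iff.1 he with rfl | rfl <;> push_cast at h3 h4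
  · exact h γ (gamma_le (Gamma_mem.2 ⟨sub_eq_zero.1 h3, h1, h2, sub_eq_zero.1 h4⟩))
  · rw [← Galx.act_neg]
    refine h _ (gamma_le (M := N) (Gamma_mem.2 ⟨?_, ?_, ?_, ?_⟩)) <;>
      simp only [Matrix.SpecialLinearGroup.coe_neg, Matrix.neg_apply, Int.cast_neg]
    exacts [by linear_combination -h3, by rw [h1, neg_zero], by rw [h2, neg_zero],
      by linear_combination -h4]

/-- conjugate points are conjugate places -/
theorem Cj.rl (hM : 0 < M) (hk : Cy σ M k) (h : Cj σ M k τ τ') :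
    ∃ γ ∈ Gamma M, Rl σ (M * 4) (MF (Gt (M * 4))) (γ • τ) τ' := by
  obtain ⟨τ₀, r⟩ := trc (lv4 hM) σ⁻¹ τ'
  have r := r.symm
  rw [inv_inv] at r
  obtain ⟨k', hk'⟩ := ex_cy σ (lv4 hM).pos
  obtain ⟨γ, hγ, rfl⟩ :=
    ((r.cj (lv4 hM) hk').down hM four_pos ((hk'.down hM four_pos).uniq hk hM)).src h hM
  exact ⟨γ, hγ, r⟩

theorem val_of (hn : 0 < N) (e : IsAut N σ x y) (h : od τ' y = od τ x ∧ ev τ' y = σ (ev τ x))
    (hc : Val τ x c) : Val τ' y (σ c) := by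
  rw [val_iff, Cf.reg_iff] at hc ⊢
  rw [h.1, h.2, aut_zero hn e, hc.2]
  exact ⟨hc.1, rfl⟩

theorem trv : TRV := fun X σ g M k τ τ' hM hg hk h f hf c hc => by
  obtain ⟨γ, hγ, r⟩ := h.rl hM hk
  have m : f ∈ L (Gt (M * 4)) := gt_fix hf
  have a := Bc.aut_gal X exp (x_galx X) grp (lv4 hM) hg m
  obtain ⟨k', hk'⟩ := ex_cy σ (lv4 hM).pos
  have := r _ (cv_mem_MF m) _ (cv_mem_MF ((x_shim X _ (lv4 hM) g k' (hk'.cyc hg)).1 f m)) a
  rw [od_MF (cv_mem_MF hf) hγ, ev_MF (cv_mem_MF hf) hγ] at this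
  exact val_of (lv4 hM).pos a this hc

theorem gt_le (N m : ℕ) : Gt (N * m) ≤ Gamma0 N := fun _ h =>
  mem_G0.2 ((Dvd.intro (m : ℤ) (by push_cast; ring)).trans h.1)

theorem Cj0.rl (hN : 0 < N) (h : Cj0 σ N τ τ') : Rl σ 1 (MF (Gamma0 N)) τ τ' := by
  obtain ⟨τ₁, r⟩ := trc (lv4 hN) σ τ
  obtain ⟨k, hk⟩ := ex_cy σ (lv4 hN).pos
  obtain ⟨γ, hγ, rfl⟩ := (((r.cj (lv4 hN) hk).cj0 (lv4 hN).pos (Dvd.intro _ rfl)).tgt hN).1 h
  intro x hx y hy e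
  rw [od_MF hy hγ, ev_MF hy hγ]
  exact r x (MF_mono (gt_le N 4) hx) y (MF_mono (gt_le N 4) hy)
    (one_mul (N * 4) ▸ aut_up one_pos e (lv4 hN).pos)

theorem aut_rat {s : LS} (hs : ExM 1 s x) (h : RatS s) (σ : ℂ ≃+* ℂ) : IsAut 1 σ x x :=
  ⟨s, hs, by
    rwa [show cm σ s = s from HahnSeries.ext (funext fun n => by
      obtain ⟨r, e⟩ := h n
      rw [coeff_cm, e, map_ratCast])]⟩

theorem tr0 : TR0 := fun σ _ _ _ hN h x hx _ hs hr _ =>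
  val_of one_pos (aut_rat hs hr σ) (h.rl hN x hx x hx (aut_rat hs hr σ))

/-- the first coordinate has a pole over the origin -/
theorem pole {a : ℕ → ℤ} {A B : ℤ} {w : ℕ} {Λ : Submodule ℤ ℂ} {I : ℍ → ℂ}
    (h : Par N a A B w Λ I x y) (hI : I ∈ Hol) : Reg τ x ↔ I τ ∉ Λ := by
  refine ⟨fun r hτ => ?_, fun hτ => (val_iff.1 (h.xv τ hτ)).1⟩
  obtain ⟨f, g, g0, e⟩ := r
  have n0 : (⟨I, hI⟩ - algebraMap ℂ Hol (I τ) : Hol) ≠ 0 := fun z => by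
    obtain ⟨L, hL⟩ := h.lat
    obtain ⟨γ, -, hγ⟩ := (h.per _).1 (hL ▸ L.ω₁_mem_lattice)
    have c : ∀ s, I s - I τ = 0 := fun s => congrFun (congrArg Subtype.val z) s
    exact one_ne_zero (LinearIndependent.pair_iff.1 L.indep 1 0 (by
      rw [← hγ τ, c, smul_zero, zero_smul, add_zero])).1
  obtain ⟨m, u, u0, eu⟩ := Cf.ex_fac τ n0
  have ev : ∀ s, I s - I τ = ((s : ℂ) - τ) ^ m * u.1 s := fun s =>
    congrFun (congrArg Subtype.val eu) s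
  have t1 : Tendsto (fun s => I s - I τ) (𝓝[≠] τ) (𝓝[≠] 0) := by
    refine tendsto_nhdsWithin_iff.2 ⟨?_, ?_⟩
    · have := ((Cf.cont ⟨I, hI⟩).tendsto τ).sub_const (I τ)
      rw [sub_self] at this
      exact this.mono_left nhdsWithin_le_nhds
    · filter_upwards [self_mem_nhdsWithin,
        nhdsWithin_le_nhds ((Cf.cont u).continuousAt.eventually_ne u0)] with s h1 h2
      exact ev s ▸ mul_ne_zero (pow_ne_zero _ (Cf.sub_ne h1)) h2
  have t2 := (h.lat.tendsto_wp.comp t1).mul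
    (((Cf.cont g).tendsto τ).mono_left nhdsWithin_le_nhds)
  have t3 := ((t1.mono_right nhdsWithin_le_nhds).pow 2).mul
    (((Cf.cont f).tendsto τ).mono_left nhdsWithin_le_nhds)
  have : NeBot (𝓝[≠] τ) := by
    rw [← mem_closure_iff_nhdsWithin_neBot,
      isOpenEmbedding_coe.isEmbedding.closure_eq_preimage_closure_image, Set.mem_preimage,
      mem_closure_iff_nhds]
    intro t ht
    obtain ⟨z, h1, h2⟩ := mem_closure_iff_nhds.1 (mem_closure_iff_nhdsWithin_neBot.2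
      (inferInstance : NeBot (𝓝[≠] (τ : ℂ)))) _
      (inter_mem ht (isOpen_upperHalfPlaneSet.mem_nhds τ.im_pos))
    exact ⟨z, h1.1, ⟨z, h1.2⟩, fun e => h2 (congrArg (fun τ : ℍ => (τ : ℂ)) e), rfl⟩
  refine g0 (by
    simpa using tendsto_nhds_unique_of_eventuallyEq t2 t3 (by
      filter_upwards [t1.eventually h.lat.notMem_zero] with s hs
      have hs' : I s ∉ Λ := fun k => hs (sub_mem k hτ)
      have v := val_iff.1 (h.xv s hs')
      have := Cf.ev_mul v.1 (Cf.reg_jm s g)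
      rw [e, Cf.ev_jm, Cf.ev_jm, v.2] at this
      rw [this, Function.comp_apply, h.lat.wp_congr (w := I s) (by simpa using hτ), mul_assoc]))

theorem pi_row : PI := fun N a A B w Λ I x y hN h hI σ φ T τ τ' e => by
  obtain ⟨s, hs, hr⟩ := h.xq
  obtain ⟨s', hs', hr'⟩ := h.yq
  have a := aut_rat hs hr σ
  have r := e.rl hN x h.xm x h.xm a
  have k : I τ' ∉ Λ ↔ I τ ∉ Λ := by
    rw [← pole h hI, ← pole h hI, Cf.reg_iff, Cf.reg_iff, r.1]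
  by_cases hτ : I τ ∈ Λ
  · exact sub_mem ((T.mem _).2 hτ) (not_iff_not.1 k |>.2 hτ)
  have hτ' := k.2 hτ
  have r' := (e.rl hN y h.ym y h.ym (aut_rat hs' hr' σ)).2
  rw [(val_iff.1 (h.yv _ hτ)).2, (val_iff.1 (h.yv _ hτ')).2, map_div₀, map_ofNat] at r'
  refine h.lat.sub_mem_of_eq (mt (T.mem _).1 hτ) hτ' ?_ ?_
  · rw [T.wp, ← (val_iff.1 (h.xv _ hτ)).2, ← (val_iff.1 (h.xv _ hτ')).2, r.2]
    rfl
  · rw [T.dwp, RingHom.coe_coe]
    linear_combination -2 * r'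

/-- conjugates of CM points are algebraic -/
theorem cm_alg {l : P004Z.Fm} (l0 : l ≠ 0) (e : P004Z.evq l τ = 0) {ψ : ℂ → ℂ}
    (t : Tp σ (lat τ) (lat τ') ψ) : IsAlgebraic ℚ (τ' : ℂ) := by
  obtain ⟨a, b, c⟩ := l
  simp only [P004Z.evq] at e
  have a0 : a ≠ 0 := by
    rintro rfl
    obtain ⟨rfl, rfl⟩ := lin_inj (τ := τ) (a := b) (b := c) (a' := 0) (b' := 0) (by simpa using e)
    exact l0 rfl
  have h := (t.cm (c := a * τ) fun z hz => by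
    obtain ⟨m, n, rfl⟩ := mem_lat.1 hz
    exact mem_lat.2 ⟨n * a - m * b, -(m * c), by push_cast; linear_combination (-m : ℂ) * e⟩).1
  obtain ⟨m, n, e1⟩ := mem_lat.1 (h _ (one_lat τ'))
  obtain ⟨p, q, e2⟩ := mem_lat.1 (h _ (tau_lat τ'))
  have m0 : m ≠ 0 := by
    rintro rfl
    refine a0 (lin_inj (τ := τ) (a := a) (b := 0) (a' := 0) (b' := n) (σ.injective ?_)).1
    simpa using e1.symm
  refine ⟨Polynomial.C (m : ℚ) * .X ^ 2 + .C ((n : ℚ) - p) * .X + .C (-q : ℚ), fun z => m0 ?_, ?_⟩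
  · have := congrArg (Polynomial.coeff · 2) z
    simp only [Polynomial.coeff_add, Polynomial.coeff_C_mul, Polynomial.coeff_X_pow,
      Polynomial.coeff_X, Polynomial.coeff_C] at this
    simpa using this
  · simp
    linear_combination τ' * e1 - e2

theorem alg : ALG := fun τ l l0 e x hx c hc => by
  by_contra h
  obtain ⟨X⟩ := mdl
  obtain ⟨M, hM, hm, -⟩ := mem_FS.1 hx
  have : Algebra.IsAlgebraic ℚ Qb := AlgebraicClosure.isAlgebraic ℚ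
  have : Countable Qb := Cardinal.mk_le_aleph0_iff.1
    ((Algebra.IsAlgebraic.cardinalMk_le_max ℚ Qb).trans (max_le Cardinal.mk_le_aleph0 le_rfl))
  have : Countable (Polynomial Qb) := Cardinal.mk_le_aleph0_iff.1
    (Polynomial.cardinalMk_le_max.trans (max_le Cardinal.mk_le_aleph0 le_rfl))
  let _ : Algebra Qb ℂ := (io : Qb →+* ℂ).toAlgebra
  have : IsScalarTower ℚ Qb ℂ := .of_algebraMap_eq fun a => (io.commutes a).symm
  have inj : ∀ d : ℂ, ¬ IsAlgebraic ℚ d → ∀ p : Polynomial Qb, Polynomial.aeval d p = 0 ↔ p = 0 :=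
    fun d hd p => ⟨fun z => by_contra fun n => hd (IsAlgebraic.restrictScalars ℚ ⟨p, n, z⟩),
      fun z => by rw [z, map_zero]⟩
  have S : {s : ℍ | IsAlgebraic ℚ (s : ℂ)}.Countable :=
    (Algebraic.countable ℚ ℂ).preimage UpperHalfPlane.coe_injective
  refine not_countable_complex (((Algebraic.countable ℚ ℂ).union
    (S.image fun s => ev s x)).mono fun d _ => or_iff_not_imp_left.2 fun hd => ?_)
  obtain ⟨σ, hσ⟩ := ext_ker (Polynomial Qb) (Polynomial.aeval c).toRingHom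
    (Polynomial.aeval d).toRingHom fun p => (inj c h p).trans (inj d hd p).symm
  obtain ⟨k, hk⟩ := ex_cy σ hM
  obtain ⟨τ', t⟩ := ((trx σ M hM).2 k hk).2 τ
  have := trv X σ 1 M k τ τ' hM (fun a => by simpa using! hσ (.C a)) hk t (mkF x hx)
    (fun γ hγ => act_eq_self hm hγ) c hc
  rw [map_one, show σ c = d by simpa using hσ .X] at this
  exact ⟨τ', cm_alg l0 e t.choose_spec.1, (val_iff.1 this).2⟩

end Vale.Agent.P004K
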