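import Vale.Agent.P004K.Tr
import Vale.Agent.P004K.Hg.Ft
import Vale.Agent.P004Z.Fin.Int

/-! # P004K: the rows `INT ZG SUM` as closed terms -/

set_option autoImplicit false

namespace Vale.Agent.P004K

theorem int_row : INT := fun τ l h0 h => jL_lat τ ▸ P004Z.Fin.int l τ h0 h

theorem x_zg : ZG := zg trx cj0

theorem x_sum : SUM := sum_row cj0

end Vale.Agent.P004K
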