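import Vale.Agent.P027H.Unif
import Vale.Agent.P027M.M.A2

/-! # P004K (complex multiplication): transport of lattices, definitions -/

set_option autoImplicit false

open UpperHalfPlane NumberField

noncomputable section

namespace Vale.Agent.P004K

open Vale.Agent.P022 P027H P027M.M

/-- `σ` extends `g` -/
def Ex (σ : ℂ ≃+* ℂ) (g : GQ) : Prop := ∀ a, σ (io a) = io (g a)

/-- `σ ζ_M = ζ_M ^ k` -/
def Cy (σ : ℂ ≃+* ℂ) (M : ℕ) (k : ℤ) : Prop := σ (ze M 1) = ze M k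

/-- `ψ : ℂ / Λ → ℂ / Λ'` is the action of `σ` on points, up to a homothety -/
def Tp (σ : ℂ ≃+* ℂ) (Λ Λ' : Submodule ℤ ℂ) (ψ : ℂ → ℂ) : Prop :=
  ∃ μ : ℂ, μ ≠ 0 ∧ Tr (σ : ℂ →+* ℂ) Λ (scl μ Λ') fun z => μ * ψ z

/-- `τ'` is the conjugate of `τ` on `Y(M)` -/
def Cj (σ : ℂ ≃+* ℂ) (M : ℕ) (k : ℤ) (τ τ' : ℍ) : Prop := ∃ ψ, Tp σ (lat τ) (lat τ') ψ ∧
  ψ (τ / M) - τ' / M ∈ lat τ' ∧ ψ (1 / M) - k / M ∈ lat τ'

/-- `τ'` is the conjugate of `τ` on `Y₀(N)` -/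
def Cj0 (σ : ℂ ≃+* ℂ) (N : ℕ) (τ τ' : ℍ) : Prop := ∃ ψ, Tp σ (lat τ) (lat τ') ψ ∧
  ∃ a : ℤ, ψ (1 / N) - a / N ∈ lat τ'

/-- `τ` is the point `(Λ, Λ₁)` of `Y₀(N)` -/
def At (N : ℕ) (Λ Λ₁ : Submodule ℤ ℂ) (τ : ℍ) : Prop := ∃ ω, Hom ω (lat τ) Λ ∧
  ∀ z, z ∈ Λ₁ ↔ ∃ a : ℤ, z - a * (ω / N) ∈ Λ

section

variable {O : Type} [CommRing O] (J : O →+* ℂ)

/-- `I⁻¹ Λ` for the order of `Λ` -/
def st (I : Ideal O) (Λ : Submodule ℤ ℂ) : Submodule ℤ ℂ where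
  carrier := {z | ∀ a ∈ I, (∀ w ∈ Λ, J a * w ∈ Λ) → J a * z ∈ Λ}
  add_mem' := fun {a b} ha hb c hc h => by
    rw [mul_add]
    exact Λ.add_mem (ha c hc h) (hb c hc h)
  zero_mem' := fun c _ _ => by
    rw [mul_zero]
    exact Λ.zero_mem
  smul_mem' := fun n {a} ha c hc h => by
    rw [mul_smul_comm]
    exact Λ.smul_mem n (ha c hc h)

/-- the order of conductor `c` -/
def Oc (c : ℕ) : Submodule ℤ ℂ where
  carrier := {z | ∃ (k : ℤ) (a : O), z = k + c * J a}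
  add_mem' := by
    rintro _ _ ⟨k, a, rfl⟩ ⟨m, b, rfl⟩
    exact ⟨k + m, a + b, by rw [map_add]; push_cast; ring⟩
  zero_mem' := ⟨0, 0, by simp⟩
  smul_mem' := by
    rintro n _ ⟨k, a, rfl⟩
    exact ⟨n * k, n * a, by rw [map_mul, map_intCast, zsmul_eq_mul]; push_cast; ring⟩

/-- `O / I = ℤ / N` -/
def Cn (N : ℕ) (I : Ideal O) : Prop :=
  (∀ k : ℤ, (k : O) ∈ I ↔ (N : ℤ) ∣ k) ∧ ∀ a : O, ∃ k : ℤ, a - k ∈ I

/-- `I` is a nonzero ideal prime to `c` -/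
def Cop (c : ℕ) (I : Ideal O) : Prop := I ≠ ⊥ ∧ I ⊔ Ideal.span {(c : O)} = ⊤

/-- the Heegner point of level `I` and conductor `c` -/
def Hp (N : ℕ) (I : Ideal O) (c : ℕ) (τ : ℍ) : Prop := At N (Oc J c) (st J I (Oc J c)) τ

/-- a lattice with multiplication by `c O` -/
structure KL (c : ℕ) (Λ : Submodule ℤ ℂ) : Prop where
  lat : IsLat Λ
  mul : ∀ a : O, ∀ z ∈ Λ, J (c * a) * z ∈ Λ

end

/-- imaginary quadratic fields -/
structure Iq (K : Type) [Field K] [NumberField K] : Prop where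
  two : Module.finrank ℚ K = 2
  im : IsEmpty (K →+* ℝ)

/-- the embedding of the integers -/
def JJ {K : Type} [Field K] (j : K →+* Qb) : 𝓞 K →+* ℂ :=
  ((io : Qb →+* ℂ).comp j).comp (algebraMap (𝓞 K) K)

/-- `j` of a lattice -/
def jL (Λ : Submodule ℤ ℂ) : ℂ := 1728 * g2 Λ ^ 3 / (g2 Λ ^ 3 - 27 * g3 Λ ^ 2)

section

variable {K : Type} [Field K] (j : K →+* Qb) (c : ℕ)

/-- the singular modulus of conductor `c` -/
def jc : Qb := Function.invFun io (jL (Oc (JJ j) c))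

/-- the group of the ring class field of conductor `c` -/
def Hc : Subgroup GQ := GK j ⊓ MulAction.stabilizer GQ (jc j c)

/-- `g` is an Artin symbol of `I` for the ring class field of conductor `c` -/
def Ar (I : Ideal (𝓞 K)) (g : GQ) : Prop :=
  g ∈ GK j ∧ io (g (jc j c)) = jL (st (JJ j) I (Oc (JJ j) c))

/-- `t` generates `Hc c / Hc (c l)`, which has order `n` -/
def Gen (l n : ℕ) (t : GQ) : Prop := t ∈ Hc j c ∧ (∀ i : ℕ, t ^ i ∈ Hc j (c * l) ↔ n ∣ i) ∧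
  ∀ g ∈ Hc j c, ∃ i : ℕ, g⁻¹ * t ^ i ∈ Hc j (c * l)

end

section

variable (A : ValuationSubring ℂ) (Λ : Submodule ℤ ℂ) (W : WeierstrassCurve ℂ)

/-- `W` is a model of `ℂ / Λ` with good reduction at `A` -/
structure Gd : Prop where
  lat : IsLat Λ
  int : W.a₁ ∈ A ∧ W.a₂ ∈ A ∧ W.a₃ ∈ A ∧ W.a₄ ∈ A ∧ W.a₆ ∈ A
  unit : A.valuation W.Δ = 1
  e2 : g2 Λ = W.c₄ / 12
  e3 : g3 Λ = W.c₆ / 216

/-- the first coordinate -/
def xx (z : ℂ) : ℂ := wp Λ z - W.b₂ / 12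

/-- the kernel of the reduction -/
def Sk (z : ℂ) : Prop := z ∈ Λ ∨ xx Λ W z ∉ A

open Classical in
/-- the residue -/
def rs (z : ℂ) : IsLocalRing.ResidueField A :=
  if h : z ∈ A then IsLocalRing.residue A ⟨z, h⟩ else 0

/-- the reduction of the first coordinate -/
def xb (z : ℂ) : IsLocalRing.ResidueField A := rs A (xx Λ W z)

end

/-- the degree of the isogeny `z ↦ c z` -/
def dg (c : ℂ) (Λ Λ' : Submodule ℤ ℂ) : ℕ :=
  Λ.toAddSubgroup.relIndex (scl c⁻¹ Λ').toAddSubgroup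

end Vale.Agent.P004K
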