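import Vale.Agent.P004K.St4

/-! # P004K: the congruence on `E` from the rows `FFR` and `CMR` -/

set_option autoImplicit false
set_option linter.all false

open UpperHalfPlane NumberField CongruenceSubgroup
open scoped MatrixGroups Classical

noncomputable section

namespace Vale.Agent.P004K

open Vale.Agent.P022 P027H P027M.M Vale.Agent.P022.H218.L3 Vale.Agent.P022.H236.L3
open P004Z.EF (Val RatS Par)

namespace Cg

variable {N : ℕ} {x : Mer} {τ : ℍ}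

theorem fs_of (hN : 0 < N) (hx : x ∈ MF (Gamma0 N)) (h : ∃ s, ExM 1 s x ∧ RatS s) : x ∈ FS := by
  obtain ⟨s, hs, hr⟩ := h
  have a : Alg s := fun n => by
    obtain ⟨r, e⟩ := hr n
    exact ⟨r, by rw [e, map_ratCast]⟩
  exact mem_FS.2 ⟨N, hN, MF_mono (fun γ h => Gamma0_mem.2 (Gamma_mem.1 h).2.2.1) hx, _,
    by simpa only [one_mul] using exM_period hN one_ne_zero hs, a.sb N hN⟩

theorem val_MF (hx : x ∈ MF (Gamma0 N)) {γ : SL(2, ℤ)} (hγ : γ ∈ Gamma0 N) {c : ℂ} :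
    Val (γ • τ) x c ↔ Val τ x c := by
  rw [val_iff, val_iff, reg_MF hx hγ, ev_MF hx hγ]

theorem val_uq {c c' : ℂ} (h : Val τ x c) (h' : Val τ x c') : c = c' :=
  (val_iff.1 h).2.symm.trans (val_iff.1 h').2

/-- the curve -/
def Wc (a b : ℤ) : WeierstrassCurve ℂ := ⟨0, 0, 0, a, b⟩

theorem xx_eq (a b : ℤ) (Λ : Submodule ℤ ℂ) (z : ℂ) : xx Λ (Wc a b) z = wp Λ z := by
  simp [xx, Wc, WeierstrassCurve.b₂]

theorem yy_eq (a b : ℤ) (Λ : Submodule ℤ ℂ) (z : ℂ) : Gm.yy Λ (Wc a b) z = dwp Λ z / 2 := by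
  simp [Gm.yy, Wc]

end Cg

open Cg in
/-- **the congruence on `E`** -/
theorem cge_of (f : FFR) (cm : CMR) : CGE := by
  intro K _ _ j hK N a a' b' w Λ F x y I hN par hF hI
  obtain ⟨M₁, p1, f1⟩ := f N hN x par.xm (fs_of hN par.xm par.xq)
  obtain ⟨M₂, p2, f2⟩ := f N hN y par.ym (fs_of hN par.ym par.yq)
  refine ⟨M₁ * M₂ * (2 * (4 * a' ^ 3 + 27 * b' ^ 2).natAbs), by
    have := Int.natAbs_pos.2 par.disc
    positivity, fun c l hc cN hl lc lM pr P hP lP φ σ hφ hσ τ τ' τ'' h1 h2 h3 Y hY => ?_⟩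
  obtain ⟨A, hA⟩ := Gm.exists_place hP
  have le := fun {z} => A.valuation_le_one_iff z
  have v1 (n : ℤ) (h : ¬ (l : ℤ) ∣ n) : A.valuation n = 1 := by
    obtain ⟨u, v, e⟩ := ((Nat.prime_iff_prime_int.1 hl).irreducible.coprime_iff_not_dvd).2 h
    have := (hA n).2.2 fun k => hP.ne_top ((Ideal.eq_top_iff_one _).2 (by
      have := P.add_mem (P.mul_mem_left (u : 𝓞 Qb) lP) (P.mul_mem_left (v : 𝓞 Qb) k)
      rwa [← Int.cast_natCast, ← Int.cast_mul, ← Int.cast_mul, ← Int.cast_add, e, Int.cast_one] at this))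
    simpa using this
  have v2 (n : ℕ) (h : ¬ l ∣ n) : A.valuation n = 1 := by
    simpa using v1 n (mt Int.natCast_dvd_natCast.1 h)
  have vl : A.valuation l < 1 := by
    have := lt_of_le_of_ne (le.2 (hA l).1) fun k => (hA l).2.1 k lP
    simpa using this
  obtain ⟨γ₁, g1, γ₂, g2, nr⟩ := cm K j hK N I c l hN hI hc cN hl lc
    (fun e => lM (by rw [e]; exact (dvd_mul_right 2 _).mul_left _)) pr A σ vl (Gm.fr_of hP (fun e => hl.ne_zero
      (by simpa [e] using lP)) hA hσ hl.ne_zero hφ) τ τ' τ'' h1 h2 h3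
  have k1 := f1 A (v2 _ fun k => lM ((k.mul_right _).mul_right _)) _ _ nr
  have k2 := f2 A (v2 _ fun k => lM ((k.mul_left _).mul_right _)) _ _ nr
  simp only [val_MF par.xm g1, val_MF par.xm g2, val_MF par.ym g1, val_MF par.ym g2] at k1 k2
  have G : Gd A Λ (Wc a' b') := ⟨par.lat, ⟨zero_mem _, zero_mem _, zero_mem _, intCast_mem _ _,
    intCast_mem _ _⟩, by
      rw [show (Wc a' b').Δ = -((2 : ℕ) ^ 4 * (4 * a' ^ 3 + 27 * b' ^ 2 : ℤ)) by
        simp only [Wc, WeierstrassCurve.Δ, WeierstrassCurve.b₂, WeierstrassCurve.b₄,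
          WeierstrassCurve.b₆, WeierstrassCurve.b₈]
        push_cast
        ring, Valuation.map_neg, map_mul, map_pow, v2 2 fun k => lM ((k.mul_right _).mul_left _),
        v1 _ fun k => lM (((Int.natCast_dvd.1 k).mul_left _).mul_left _), one_pow, one_mul], by
      simp only [par.g2_eq, Wc, WeierstrassCurve.c₄, WeierstrassCurve.b₂, WeierstrassCurve.b₄]
      ring, by
      simp only [par.g3_eq, Wc, WeierstrassCurve.c₆, WeierstrassCurve.b₂, WeierstrassCurve.b₄,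
        WeierstrassCurve.b₆]
      ring⟩
  have s1 {t : ℍ} (h : ¬ Sk A Λ (Wc a' b') (F t)) :
      F t ∉ Λ ∧ wp Λ (F t) ∈ A ∧ dwp Λ (F t) / 2 ∈ A := by
    have m := xx_eq a' b' Λ _ ▸ Gm.xx_mem h
    refine ⟨(not_or.1 h).1, m, le.1 ((pow_le_one_iff two_ne_zero).1 ?_)⟩
    rw [← map_pow, le, show (dwp Λ (F t) / 2) ^ 2 = wp Λ (F t) ^ 3 + a' * wp Λ (F t) + b' by
      rw [div_pow, par.lat.ode (not_or.1 h).1, par.g2_eq, par.g3_eq]; ring]
    exact add_mem (add_mem (pow_mem m 3) (mul_mem (intCast_mem _ _) m)) (intCast_mem _ _)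
  have s2 {t : ℍ} {b : ℂ} (hb : b ∈ A) (h : Val t x b) :
      ¬ Sk A Λ (Wc a' b') (F t) ∧ wp Λ (F t) = b := by
    have m := (pole par hF).1 (val_iff.1 h).1
    have e := val_uq (par.xv t m) h
    exact ⟨fun k => k.elim m fun k => k (by rwa [xx_eq, e]), e⟩
  have sk : Sk A Λ (Wc a' b') (F τ' - F τ'') := by
    by_cases c1 : Sk A Λ (Wc a' b') (F τ')
    · refine Gm.sk_sub G c1 (by_contra fun c2 => ?_)
      obtain ⟨b, hb, e, -⟩ := (k1 _ (s1 c2).2.1).2 (par.xv _ (s1 c2).1)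
      exact (s2 hb e).1 c1
    obtain ⟨b, hb, e, r⟩ := (k1 _ (s1 c1).2.1).1 (par.xv _ (s1 c1).1)
    obtain ⟨c2, rfl⟩ := s2 hb e
    obtain ⟨b, -, e', r'⟩ := (k2 _ (s1 c1).2.2).1 (par.yv _ (s1 c1).1)
    obtain rfl := val_uq (par.yv _ (s1 c2).1) e'
    obtain ⟨n1, e1⟩ := Gm.rd_of G c1
    obtain ⟨n2, e2⟩ := Gm.rd_of G c2
    rw [← Gm.rd_eq_zero G, map_sub, sub_eq_zero, e1, e2, WeierstrassCurve.Affine.Point.some.injEq,
      xb, xb, xx_eq, xx_eq, yy_eq, yy_eq]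
    exact ⟨r.symm, r'.symm⟩
  rintro u v h rfl ⟨s, t, hs, e⟩
  by_cases m : F τ' - F τ'' ∈ Λ
  · exact WeierstrassCurve.Affine.Point.some_ne_zero _ (hY.1 m)
  obtain ⟨u', v', h', e1, e2, -⟩ := hY.2 m
  obtain ⟨rfl, -⟩ := WeierstrassCurve.Affine.Point.some.inj e1
  refine sk.resolve_left m ?_
  have := le.2 (hA t).1
  rwa [← e, map_mul, map_mul, (hA s).2.2 hs, one_mul, e2, le, ← xx_eq a' b'] at this

end Vale.Agent.P004K
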