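import Vale.Agent.P004K.Cm2
import Vale.Agent.P004K.Hg.He
import Vale.Agent.P004K.Jf
import Vale.Agent.P004K.Rc.Cyc

/-! # P004K: Heegner points at an inert prime (row `CMR`) -/

set_option autoImplicit false

open UpperHalfPlane CongruenceSubgroup NumberField
open scoped MatrixGroups

noncomputable section

namespace Vale.Agent.P004K

open Vale.Agent.P022 P027H P027M.M Vale.Agent.P022.H218.L3 Gm

namespace Cm1

variable {A : ValuationSubring ℂ} {Λ Λ' : Submodule ℤ ℂ} {W W' : WeierstrassCurve ℂ} {τ τ' : ℍ}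
  {L c l : ℕ} {μ μ' : ℂ}

/-- a purely inseparable isogeny is the Frobenius -/
theorem frob (hL : Lv L) (vL : A.valuation L = 1) (hl : 0 < l) (e : (τ : ℂ) = l * τ')
    (H : Hom μ (lat τ) Λ) (G : Gd A Λ W) (H' : Hom μ' (lat τ') Λ') (G' : Gd A Λ' W')
    (T : ∀ z : ℂ, l * z ∈ Λ → Sk A Λ W z) (a b : ℤ) (hv : NZ L ![a, b]) :
    rs A (rf L ![l * a, b] τ') = rs A (rf L ![a, b] τ) ^ l := by
  have m0 := H.1
  have c0 := div_ne_zero H'.1 m0
  have le : ∀ z ∈ Λ, μ' / μ * z ∈ Λ' := fun z hz => by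
    obtain ⟨u, v, h⟩ := mem_lat.1 ((H.symm.2 z).1 hz)
    refine mem_of_eq ((H'.2 _).1 (lin_lat τ' (u * l) v)) ?_
    rw [div_eq_mul_inv, mul_assoc, ← h, e]
    push_cast
    ring
  have d : dg (μ' / μ) Λ Λ' = l := by
    obtain ⟨V, a⟩ : ∃ V, ∀ τ : ℍ, ar (lat τ) = τ.im * V := ⟨_, fun τ => by
      rw [P027M.M.lat, ar_eq]
      simp only [pp, Complex.one_im, Complex.one_re, mul_zero, one_mul, zero_sub, abs_neg, coe_im,
        abs_of_pos τ.im_pos]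
      rfl⟩
    have := dg_eq G.lat G'.lat c0 le
    have p := (ar_pos (isLat τ')).ne'
    have q := (Complex.normSq_pos.2 m0).ne'
    have q' := (Complex.normSq_pos.2 H'.1).ne'
    rw [ar_hom H (isLat _), ar_hom H' (isLat _), a τ, show τ.im = l * τ'.im by
      simpa using congrArg Complex.im e, mul_assoc (l : ℝ), ← a, map_div₀] at this
    exact Nat.cast_injective (R := ℝ) (this.trans (by field_simp))
  obtain ⟨α, α0, k⟩ := (iso A Λ W Λ' W' _ G G' c0 le).2.2.2 fun z hz => T z (by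
    obtain ⟨u, v, h⟩ := mem_lat.1 ((H'.symm.2 _).1 hz)
    refine mem_of_eq ((H.2 _).1 (lin_lat τ u (l * v))) ?_
    have := H'.1
    rw [e]
    push_cast
    field_simp at h
    linear_combination (-l : ℂ) * h)
  have z : ∀ v w : Fin 2 → ℤ, w 0 = l * v 0 → w 1 = v 1 →
      μ' / μ * (μ * zt L v τ) = μ' * zt L w τ' := fun v w h1 h2 => by
    rw [zt, zt, h1, h2, e]
    push_cast
    field_simp
  have n := fun {v} (h : NZ L v) => nsk hL vL H G h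
  obtain ⟨k1, k2⟩ := k _ _ (n hv) (n (Pre.nz1 hL))
  have k3 := (k _ _ (n (Pre.nz4 hL)) (n (Pre.nz1 hL))).2
  rw [z ![a, b] ![l * a, b] rfl rfl] at k1 k2
  rw [z (p1 L) (p1 L) (mul_zero _).symm rfl] at k2 k3
  rw [z (p4 L) (p4 L) (mul_zero _).symm rfl] at k3
  rw [(rf_red hL vL H G hv).2, (rf_red hL vL H' G' (not_not.1 fun h =>
    k1 (.inl ((H'.2 _).1 ((zt_mem hL.pos).2 h))))).2, k2, k3, d, mul_div_mul_left _ _ α0, div_pow]

variable {O : Type} [CommRing O] {J : O →+* ℂ}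

/-- supersingular reduction -/
theorem tors (hl : 0 < l) (vl : A.valuation l < 1) (co : IsCoprime (l : ℤ) c)
    (m : (Ideal.span {(l : O)}).IsMaximal) (H : Hom μ (Oc J c) Λ) (G : Gd A Λ W) (z : ℂ)
    (hz : l * z ∈ Λ) : Sk A Λ W z := by
  have l0 : (l : ℂ) ≠ 0 := Nat.cast_ne_zero.2 hl.ne'
  have m0 := H.1
  obtain ⟨y, s, hy, ny⟩ : ∃ y, Sk A Λ W y ∧ l * y ∈ Λ ∧ y ∉ Λ := by
    by_contra! h
    exact vl.ne ((iso A Λ W Λ W l G G l0 fun _ => nat_mul_mem l).2.1.2 h)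
  have oy := (H.symm.2 _).1 hy
  have oz := (H.symm.2 _).1 hz
  obtain ⟨a, ha⟩ := Hg.ex_J oy
  obtain ⟨b, hb⟩ := Hg.ex_J oz
  have n : (c : O) * a ∉ Ideal.span {(l : O)} := fun h => by
    rw [Ideal.mem_span_singleton] at h
    refine ny (mem_of_eq ((H.2 _).1 (Hg.div_Oc hl co (ha ▸ oy)
      (IsCoprime.dvd_of_dvd_mul_left (by simpa using co.map (Int.castRingHom O)) h))) ?_)
    rw [ha]
    field_simp
  obtain ⟨u, w, hw, e⟩ := m.exists_inv n
  have s' : Sk A Λ W (J (c * (u * b)) * y) := by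
    obtain h | h := eq_or_ne (J (c * (u * b))) 0
    · exact .inl (by rw [h, zero_mul]; exact zero_mem _)
    exact (iso A Λ W Λ W _ G G h fun x hx => (H.symm.2 _).2
      (mem_of_eq (Hg.kl_Oc (u * b) _ ((H.symm.2 _).1 hx)) (by ring))).1 y s
  have k := (H.2 _).1 (Hg.div_Oc (a := w * b) hl co (mem_of_eq (sub_mem oz (Hg.c_Oc (u * a * b)))
    (by rw [← hb, eq_sub_of_add_eq' e]; simp; ring))
    ((Ideal.mem_span_singleton.1 hw).mul_right b))
  refine sk_eq (sk_add G s' (.inl k)) ?_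
  simp only [eq_sub_of_add_eq' e, map_mul, map_sub, map_one, map_natCast, ha, hb]
  field_simp
  ring

theorem gd {q : P004Z.Fm} (q0 : q ≠ 0) (hq : P004Z.evq q τ = 0) (A : ValuationSubring ℂ) :
    ∃ μ Λ W, Hom μ (lat τ) Λ ∧ Gd A Λ W :=
  let ⟨μ, Λ, W, a, b, _⟩ := gm1 A _ (isLat τ) (mem_of_int A (int_row τ q q0 hq).tower_top)
  ⟨μ, Λ, W, a, b⟩

end Cm1

open Cm1 in
theorem cmr : CMR := fun K _ _ j q N I c l hN hn hc co hl hd h2 hp A σ vl F τ τ' τ'' h h' k => by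
  obtain ⟨ω, B⟩ := Rc.iq0 j q
  obtain ⟨η, hη, B⟩ := Hg.Bs.ex ⟨B.1, B.2⟩ hn
  obtain ⟨t, n, e⟩ := B.sq
  have hcl := mul_pos hc hl.pos
  obtain ⟨τ₀, e0, p0⟩ := B.hp hc hN e hn hη
  obtain ⟨τ₁, e1, p1⟩ := B.hp hcl hN e hn hη
  obtain ⟨q₀, a0, b0⟩ := Hg.form_of B hc p0.choose_spec.1
  obtain ⟨q₁, a1, b1⟩ := Hg.form_of B hcl p1.choose_spec.1
  obtain ⟨μ₀, Λ₀, W₀, H0, G0⟩ := gd a0 b0 A
  obtain ⟨μ₁, Λ₁, W₁, H1, G1⟩ := gd a1 b1 A
  have vL : A.valuation (N * 4 : ℕ) = 1 := by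
    obtain ⟨u, w, e⟩ := Nat.isCoprime_iff_coprime.2 (Nat.Coprime.mul_right
      (hl.coprime_iff_not_dvd.2 fun d => hd (d.mul_left c))
      (((Nat.coprime_primes hl Nat.prime_two).2 h2).pow_right 2))
    have le := fun n : ℤ => (A.valuation_le_one_iff n).2 (intCast_mem A n)
    refine by_contra fun z => (A.valuation.map_add_lt (x := u * l) (y := w * (N * 4 : ℕ)) ?_ ?_).ne
      ((congrArg _ (by exact_mod_cast e)).trans A.valuation.map_one) <;> rw [map_mul]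
    · exact (mul_le_of_le_one_left' (le u)).trans_lt vl
    · exact (mul_le_of_le_one_left' (le w)).trans_lt
        (lt_of_le_of_ne (by exact_mod_cast le (N * 4 : ℕ)) z)
  obtain ⟨τ₂, c2, r⟩ := nr hN (hl.odd_of_ne_two h2) vL H1 G1 F a0 b0
    (fun v hv => (rf_red (lv4 hN) vL H0 G0 hv).1) (frob (lv4 hN) vL hl.pos (by
      push_cast at e1
      linear_combination l * τ₁ * e0 - τ₀ * e1) H0 G0 H1 G1 (tors hl.pos vl
      (Nat.isCoprime_iff_coprime.2 (hl.coprime_iff_not_dvd.2 fun d => hd (d.mul_right N)))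
      (hp.isMaximal (by simpa using hl.ne_zero)) (p0.choose_spec.1.symm.trans H0) G0))
  obtain ⟨γ₁, g1, rfl⟩ := (Hg.at_uq cj0 hN h').1 p1
  obtain ⟨γ₂, g2, rfl⟩ := (k.tgt hN).1 ((c2.src hN).2 ((Hg.at_uq cj0 hN p0).1 h))
  exact ⟨γ₁, g1, γ₂, g2, r⟩

end Vale.Agent.P004K
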