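import Vale.Agent.P004K.Ff0

/-! # P004K: modular functions respect reduction (row `FFR`) -/

set_option autoImplicit false

open UpperHalfPlane CongruenceSubgroup Polynomial Filter
open scoped MatrixGroups IntermediateField

noncomputable section

namespace Vale.Agent.P004K.Ff

open Vale.Agent.P022 P027M.M Vale.Agent.P022.H218.L3
open Vale.Agent.P022K.F0.Cf (od ev Reg jm pl)
open Vale.Agent.P022K.F0 Vale.Agent.P022K.Sh Gm
open P004Z.EF (Val)

variable {A : ValuationSubring ℂ} {τ τ₁ τ₂ : ℍ} {x y : Mer} {L : ℕ} {γ : SL(2, ℤ)}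

/-- the places outside a finite set of primes -/
def FA : Filter (ValuationSubring ℂ) where
  sets := {s | ∃ M : ℕ, 0 < M ∧ ∀ A : ValuationSubring ℂ, A.valuation M = 1 → A ∈ s}
  univ_sets := ⟨1, one_pos, fun _ _ => trivial⟩
  sets_of_superset := fun ⟨M, h, k⟩ e => ⟨M, h, fun A a => e (k A a)⟩
  inter_sets := fun ⟨M, h, k⟩ ⟨N, h', k'⟩ => ⟨M * N, mul_pos h h', fun A a => by
    have := IsUnit.mul_iff.1 ((A.valuation_eq_one_iff ((M : A) * N)).2 (by simpa using a))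
    exact ⟨k A ((A.valuation_eq_one_iff _).1 this.1), k' A ((A.valuation_eq_one_iff _).1 this.2)⟩⟩

theorem ev_int (a : Qb) : ∀ᶠ A in FA, io a ∈ A := by
  obtain ⟨y, y0, h⟩ := ((IsFractionRing.isAlgebraic_iff ℤ ℚ Qb).2
    ((AlgebraicClosure.isAlgebraic ℚ).1 a)).exists_integral_multiple
  refine ⟨y.natAbs, Int.natAbs_pos.2 y0, fun A e => ?_⟩
  have := (A.valuation_le_one_iff _).2
    (mem_of_int A (h.map (io : Qb →+* ℂ).toIntAlgHom).tower_top)
  have e' : A.valuation y = 1 := by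
    rcases y.natAbs_eq with h | h <;> rw [h] <;> simpa using e
  rwa [map_zsmul, zsmul_eq_mul, map_mul, e', one_mul, A.valuation_le_one_iff] at this

theorem ev_ph (q : Qb[X]) : ∀ᶠ A in FA, ∀ n, io (q.coeff n) ∈ A := by
  filter_upwards [(eventually_all_finset q.support).2 fun n _ => ev_int (q.coeff n)] with A h n
  by_cases k : n ∈ q.support
  · exact h n k
  · rw [notMem_support_iff.1 k, map_zero]
    exact zero_mem A

theorem ph_CC {k : Type} [Field k] {ι : k →+* ℂ} {P : k[X]} (g1 : Gp A τ₁) (g2 : Gp A τ₂)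
    (ht : rs A (tf τ₁) = rs A (tf τ₂)) (h : ∀ n, ι (P.coeff n) ∈ A) : ph ι P ∈ CC A τ₁ τ₂ := by
  have v := fun τ => mval_iff.1 (val_t τ)
  exact ev2_mem (mem_CC.2 ⟨⟨(v _).1, (v _).2 ▸ g1.1⟩, ⟨(v _).1, (v _).2 ▸ g2.1⟩,
    by rw [rr, rr, (v _).2, (v _).2, ht]⟩) fun n => c_CC (h n)

theorem dv {k : Type} [Field k] {ι : k →+* ℂ} {P : k[X]} {m : ℕ} (g1 : Gp A τ₁) (g2 : Gp A τ₂)
    (ht : rs A (tf τ₁) = rs A (tf τ₂)) (h : ∀ n, ι (P.coeff n) ∈ A)
    (e : x * ph ι ((X ^ 2 - 4) ^ m) = ph ι P) : x ∈ CC A τ₁ τ₂ := by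
  have m1 : ph ι ((X ^ 2 - 4) ^ m) ∈ CC A τ₁ τ₂ := by
    rw [map_pow, map_sub, map_pow, map_ofNat]
    exact pow_mem (sub_mem (pow_mem (ph_CC g1 g2 ht fun n => by
      rw [coeff_X]; split_ifs <;> simp) _) (ofNat_mem _ _)) _
  have m2 : rr A τ₁ (ph ι ((X ^ 2 - 4) ^ m)) ≠ 0 := by
    rw [rr, rs_ne_zero (mem_CC.1 m1).1.2, (mval_iff.1 (val_ph ι τ₁ _)).2]
    simp [eval₂_pow, g1.2]
  have m3 : ph ι ((X ^ 2 - 4) ^ m) ≠ 0 := fun z => m2 (by
    rw [z, rr, Cf.ev_zero, rs_eq_zero (zero_mem A), map_zero]; exact one_pos)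
  rw [(eq_mul_inv_iff_mul_eq₀ m3).2 e]
  exact mul_mem (ph_CC g1 g2 ht h) (inv_CC m1 m2)

/-- integral functions of level four respect congruences -/
theorem lip (hx : x ∈ MF G0) (hr : ∀ τ, Reg τ x) (h : ∀ τ, Gp A τ → x ∈ VA A τ) (g1 : Gp A τ₁)
    (g2 : Gp A τ₂) (ht : rs A (tf τ₁) = rs A (tf τ₂)) : x ∈ CC A τ₁ τ₂ := by
  rw [rb2 sa3 (rb1 sa3), IntermediateField.mem_adjoin_simple_iff] at hx
  obtain ⟨p, q, e⟩ := hx
  obtain ⟨m, P, k⟩ := invw (RingHom.id ℂ) (p := p) (q := q) hr e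
  refine dv g1 g2 ht (coef P fun a ha v => ?_) k
  obtain ⟨τ, rfl⟩ := rb4 sa3 sa4 (rb1 sa3) a (by rintro rfl; norm_num at v)
    (by rintro rfl; norm_num at v)
  have := (k ▸ (mval_iff.2 ⟨hr τ, rfl⟩).mul (val_ph _ τ _)).unique (val_ph _ τ P)
  rw [eval₂_id, eval₂_id] at this
  rw [← this]
  simpa using mul_mem (h τ ⟨ha, v⟩).2 (pow_mem (sub_mem (pow_mem ha 2) (ofNat_mem A 4)) m)

theorem cf_mem {ι : Type} [Fintype ι] {S : Subring Mer} {y : ι → Mer} (h : ∀ i, y i ∈ S) (n : ℕ) :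
    (∏ i, (X - C (y i))).coeff n ∈ S := by
  have : ∏ i, (X - C (y i)) ∈ liftsRing S.subtype := prod_mem fun i _ =>
    sub_mem (X_mem_lifts _) (C'_mem_lifts ⟨⟨_, h i⟩, rfl⟩)
  obtain ⟨y, hy⟩ := (lifts_iff_coeff_lifts _).1 this n
  exact hy ▸ y.2

theorem chp (hL : Lv L) : ∃ (ι : Type) (_ : Fintype ι) (g : ι → SL(2, ℤ)) (o : ι),
    (∀ i, g i ∈ G0) ∧ ∀ x ∈ MF (Gt L), act (g o) x = x ∧
      ∀ n, (∏ i, (X - C (act (g i) x))).coeff n ∈ MF G0 := by
  obtain ⟨fi, hn, -⟩ := grp L hL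
  have := finite_range (Γ := G0) fun γ _ => hn γ
  have := Fintype.ofFinite (resAct (Γ := G0) fun γ _ => hn γ).range
  choose g hg using fun h : (resAct (Γ := G0) fun γ _ => hn γ).range => h.2
  have k : ∀ i (x : MF (Gt L)), act (g i) (x : Mer) = (i • x : MF (Gt L)) := fun i x =>
    congrArg Subtype.val (DFunLike.congr_fun (hg i) x)
  refine ⟨_, this, fun i => g i, 1, fun i => (g i).2, fun x hx => ?_⟩
  lift x to MF (Gt L) using hx
  refine ⟨by rw [k, one_smul], fun n => ?_⟩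
  have e : ∏ i, (X - C (act (g i) (x : Mer))) = (MulSemiringAction.charpoly
      (resAct (Γ := G0) fun γ _ => hn γ).range x).map (algebraMap _ Mer) := by
    simp only [k, MulSemiringAction.charpoly, Polynomial.map_prod, Polynomial.map_sub, map_X, map_C]
    rfl
  rw [e, coeff_map]
  exact mem_MF_of_fixed _ (Subtype.property _) fun γ hγ => congrArg Subtype.val
    (MulSemiringAction.smul_coeff_charpoly x n
      (⟨_, ⟨γ, hγ⟩, rfl⟩ : (resAct (Γ := G0) fun γ _ => hn γ).range))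

theorem chq (hL : Lv L) (hx : x ∈ MF (Gt L)) : ∃ p : Mer[X], p.Monic ∧ p.eval x = 0 ∧ ∀ n,
    p.coeff n ∈ MF G0 ∧ ∀ S : Subring Mer, (∀ γ, act γ x ∈ S) → p.coeff n ∈ S := by
  obtain ⟨ι, _, g, o, -, h⟩ := chp hL
  refine ⟨_, monic_prod_X_sub_C _ _, ?_, fun n => ⟨(h x hx).2 n, fun S k => cf_mem (fun _ => k _) n⟩⟩
  rw [eval_prod, Finset.prod_eq_zero (Finset.mem_univ o)]
  simp [(h x hx).1]

/-- holomorphic functions which are integral at the good points -/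
def RO (A : ValuationSubring ℂ) (L : ℕ) : Subring Mer := (MF (Gt L)).toSubring ⊓
  ((⨅ τ, (pl τ).toSubring) ⊓ ⨅ τ, ⨅ _ : Gp A τ, (VA A τ).toSubring)

theorem mem_RO : x ∈ RO A L ↔ x ∈ MF (Gt L) ∧ (∀ τ, Reg τ x) ∧ ∀ τ, Gp A τ → x ∈ VA A τ := by
  simp only [RO, Subring.mem_inf, Subring.mem_iInf]
  rfl

theorem gp_G0 (h : γ ∈ G0) (g : Gp A τ) : Gp A (γ • τ) := by rwa [Gp, tf_G0 h]

theorem act_RO (hL : Lv L) (h : γ ∈ G0) (hx : x ∈ RO A L) : act γ x ∈ RO A L := by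
  obtain ⟨a, b, c⟩ := mem_RO.1 hx
  exact mem_RO.2 ⟨act_mem γ (fun δ hδ => by simpa using (grp L hL).2.1 γ⁻¹ δ hδ) a,
    fun τ => (reg_act ..).2 (b _), fun τ g =>
      ⟨(reg_act ..).2 (b _), (ev_act γ τ x).symm ▸ (c _ (gp_G0 (inv_mem h) g)).2⟩⟩

/-- the points over a point of the reduction are conjugate -/
theorem hom (hL : Lv L) (g1 : Gp A τ₁) (g2 : Gp A τ₂) (ht : rs A (tf τ₁) = rs A (tf τ₂)) :
    ∃ γ ∈ G0, RO A L ≤ CC A (γ • τ₁) τ₂ := by
  obtain ⟨ι, _, g, o, hg, H⟩ := chp hL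
  have G := fun i => gp_G0 (inv_mem (hg i)) g1
  let f : ∀ {τ}, Gp A τ → RO A L →+* kk A := fun h => rh fun x hx => (mem_RO.1 hx).2.2 _ h
  obtain ⟨i, -, hi⟩ := (Ideal.subset_union_prime (s := Finset.univ)
    (f := fun i => RingHom.ker (f (G i))) o o (fun i _ _ _ => RingHom.ker_isPrime _)
    (I := RingHom.ker (f g2))).1 fun x hx => by
      let y : ι → RO A L := fun i => ⟨act (g i) x, act_RO hL (hg i) x.2⟩
      have n := (H x (mem_RO.1 x.2).1).2 0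
      rw [coeff_zero_eq_eval_zero, eval_prod] at n
      have m := mem_RO.1 (∏ i, -y i).2
      have : f g2 (∏ i, -y i) = f g1 (∏ i, -y i) :=
        (mem_CC.1 (lip (by simpa [y] using n) m.2.1 m.2.2 g1 g2 ht)).2.2
      rw [map_prod, map_prod, Finset.prod_eq_zero (Finset.mem_univ o) (by
        rw [map_neg, neg_eq_zero, show y o = x from Subtype.ext (H x (mem_RO.1 x.2).1).1]
        exact hx), eq_comm, Finset.prod_eq_zero_iff] at this
      obtain ⟨i, -, e⟩ := this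
      rw [map_neg, neg_eq_zero] at e
      exact Set.mem_iUnion₂.2 ⟨i, Finset.mem_univ i,
        (congrArg (rs A) (ev_act (g i) τ₁ x)).symm.trans e⟩
  refine ⟨_, inv_mem (hg i), fun x hx => ?_⟩
  obtain ⟨-, -, c⟩ := mem_RO.1 hx
  have := hi (x := ⟨x, hx⟩ - ⟨_, mem_RO.2 ⟨IntermediateField.algebraMap_mem _ (ev τ₂ x),
    fun _ => Cf.reg_const .., fun _ _ => cA (c _ g2).2⟩⟩) (by
      rw [RingHom.mem_ker, map_sub, sub_eq_zero]
      exact (rr_const _).symm)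
  rw [RingHom.mem_ker, map_sub, sub_eq_zero] at this
  exact mem_CC.2 ⟨c _ (G i), c _ g2, (this.trans (rr_const _)).symm⟩

theorem act_FS (γ : SL(2, ℤ)) (h : x ∈ FS) : act γ x ∈ FS := by
  obtain ⟨X⟩ := mdl
  have := cv_mem (X.pg γ⁻¹ (mkF x h))
  rwa [Bc.cv_pg, inv_inv] at this

theorem fs0 (hx : x ∈ MF G0) (h : x ∈ FS) : ∃ p q : Qb[X], x = ph io p / ph io q := by
  obtain ⟨X⟩ := mdl
  have l : Lv 4 := lv4 one_pos
  have t : cv X.t = tM := by
    rw [X.t_eq 4 l, map_sub, map_neg, cv_r X l (Pre.nz2 l), cv_r X l (Pre.nz3 l), Pre.t_eq l]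
  have m : mkF x h ∈ P027M.M.L G0 := fun γ hγ => act_eq_self hx hγ
  rw [X.base, IntermediateField.mem_adjoin_simple_iff] at m
  obtain ⟨p, q, e⟩ := m
  refine ⟨p, q, (congrArg cv e).trans ?_⟩
  rw [map_div₀, ← aeval_algHom_apply, ← aeval_algHom_apply, t]
  rfl

theorem mem (hL : Lv L) (hx : x ∈ MF (Gt L)) (hr : ∀ τ, Reg τ x) (hf : x ∈ FS) :
    ∀ᶠ A in FA, x ∈ RO A L := by
  obtain ⟨p, m, e, c⟩ := chq hL hx
  have : ∀ n, ∀ᶠ A in FA, ∀ τ, Gp A τ → p.coeff n ∈ VA A τ := fun n => by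
    obtain ⟨a, b, e⟩ := fs0 (c n).1 ((c n).2 FS.toSubring fun γ => act_FS γ hf)
    obtain ⟨k, P, h⟩ := invw _ (fun τ => (c n).2 (pl τ).toSubring fun γ =>
      (reg_act ..).2 (hr _)) e
    filter_upwards [ev_ph P] with A hA τ g using (mem_CC.1 (dv g g rfl hA h)).1
  filter_upwards [(eventually_all_finset p.support).2 fun n _ => this n] with A h
  refine mem_RO.2 ⟨hx, hr, fun τ g => int_mem _ m (fun n => ?_) e⟩
  by_cases k : n ∈ p.support
  · exact h n k τ g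
  · exact notMem_support_iff.1 k ▸ zero_mem _

theorem prim (hL : Lv L) (hx : x ∈ MF (Gt L)) (hf : x ∈ FS) :
    ∃ p : Qb[X][X], p.contentIdeal = ⊤ ∧ p.eval₂ (ph io) x = 0 := by
  classical
  let _ := (ph (io : Qb →+* ℂ)).toAlgebra
  obtain ⟨q, m, e, c⟩ := chq hL hx
  obtain ⟨r, h1, -, h2⟩ := lifts_and_natDegree_eq_and_monic ((q.lifts_iff_coeff_lifts
    (f := algebraMap (Subalgebra.algebraicClosure Qb[X] Mer) Mer)).2 fun n => by
      obtain ⟨a, b, e⟩ := fs0 (c n).1 ((c n).2 FS.toSubring fun γ => act_FS γ hf)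
      exact ⟨⟨_, (isAlgebraic_algebraMap a).mul (isAlgebraic_algebraMap b).inv⟩, e.symm⟩) m
  obtain ⟨p, p0, h⟩ := IsIntegral.trans_isAlgebraic Qb[X]
    (⟨r, h2, by rw [← eval_map, h1, e]⟩ : IsIntegral _ x)
  exact ⟨_, p.primPart.isPrimitive_iff_contentIdeal_eq_top.1 p.isPrimitive_primPart,
    eval₂_primPart_eq_zero (ph_inj _) p0 h⟩

/-- meromorphic functions respect congruences -/
theorem mer (hL : Lv L) (hx : x ∈ MF (Gt L)) (hf : x ∈ FS) : ∀ᶠ A in FA, ∀ τ₁ τ₂, Gp A τ₁ →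
    RO A L ≤ CC A τ₁ τ₂ → x ∈ VA A τ₁ → x ∈ CC A τ₁ τ₂ := by
  obtain ⟨p, hp, e⟩ := prim hL hx hf
  have cf : ∀ r i, (divX^[r] p).coeff i = p.coeff (i + r) := fun r => by
    induction r with
    | zero => exact fun _ => rfl
    | succ r h => exact fun i => by rw [Function.iterate_succ_apply', coeff_divX, h]; congr 1; omega
  obtain ⟨b, hb⟩ : ∃ b : ℕ → Mer, ∀ r, b r = (divX^[r] p).eval₂ (ph io) x := ⟨_, fun _ => rfl⟩
  have rc : ∀ r, b (r + 1) * x + ph io (p.coeff r) = b r := fun r => by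
    rw [hb r, ← divX_mul_X_add (divX^[r] p), eval₂_add, eval₂_mul_X, eval₂_C, cf, zero_add, hb,
      Function.iterate_succ_apply']
  have b0 : b 0 = 0 := (hb 0).trans e
  have R := fun τ q => (mval_iff.1 (val_ph (io : Qb →+* ℂ) τ q)).1
  have pm : ∀ q : Qb[X], ph io q ∈ MF (Gt L) := fun q => ev2_mem (S := (MF (Gt L)).toSubring)
    (MF_mono (grp L hL).2.2.1.hi t_mem) fun _ => IntermediateField.algebraMap_mem ..
  have pf : ∀ q : Qb[X], ph io q ∈ FS := fun q => ev2_mem (S := FS.toSubring) Pre.tM_FS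
    fun _ => FS.algebraMap_mem _
  have pr := fun q => mem hL (pm q) (fun τ => R τ q) (pf q)
  have br : ∀ r, ∀ᶠ A in FA, b r ∈ RO A L := fun r => mem hL
    (hb r ▸ ev2_mem (S := (MF (Gt L)).toSubring) hx fun _ => pm _) (fun τ => by
      by_cases h : x ∈ pl τ
      · exact hb r ▸ ev2_mem (S := (pl τ).toSubring) h fun _ => R τ _
      induction r with
      | zero => exact b0 ▸ zero_mem (pl τ)
      | succ r k =>
        rw [(eq_mul_inv_iff_mul_eq₀ fun z : x = 0 => h (z ▸ zero_mem _)).2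
          (eq_sub_of_add_eq (rc r))]
        exact mul_mem (sub_mem (H := pl τ) k (R τ _)) (((pl τ).mem_or_inv_mem x).resolve_left h))
    (hb r ▸ ev2_mem (S := FS.toSubring) hf fun _ => pf _)
  have un : ∀ q ∈ p.contentIdeal, ∀ᶠ A in FA, ∀ τ, Gp A τ →
      (∀ r, rr A τ (ph io (p.coeff r)) = 0) → rr A τ (ph io q) = 0 := fun q hq => by
    induction hq using Submodule.span_induction with
    | mem q h =>
      obtain ⟨n, -, rfl⟩ := mem_coeffs_iff.1 h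
      exact .of_forall fun _ _ _ k => k n
    | zero =>
      refine .of_forall fun A τ _ k => ?_
      rw [← k (p.natDegree + 1), coeff_eq_zero_of_natDegree_lt (Nat.lt_succ_self _)]
    | add u w _ _ a b =>
      filter_upwards [a, b, pr u, pr w] with A a b c d τ g k
      rw [map_add, rr_add ((mem_RO.1 c).2.2 τ g) ((mem_RO.1 d).2.2 τ g), a τ g k, b τ g k, add_zero]
    | smul u w _ a =>
      filter_upwards [a, pr u, pr w] with A a c d τ g k
      rw [smul_eq_mul, map_mul, rr_mul ((mem_RO.1 c).2.2 τ g) ((mem_RO.1 d).2.2 τ g), a τ g k,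
        mul_zero]
  filter_upwards [un 1 (hp ▸ Submodule.mem_top), (eventually_all_finite
    (Set.finite_le_nat p.natDegree)).2 fun r _ => (br r).and (pr (p.coeff r))]
    with A u h τ₁ τ₂ g le a
  have m : ∀ r, b r ∈ CC A τ₁ τ₂ ∧ ph io (p.coeff r) ∈ CC A τ₁ τ₂ := fun r => by
    by_cases k : r ≤ p.natDegree
    · exact ⟨le (h r k).1, le (h r k).2⟩
    rw [hb, show divX^[r] p = 0 from ext fun i => (cf r i).trans
      (coeff_eq_zero_of_natDegree_lt (by omega)), eval₂_zero,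
      coeff_eq_zero_of_natDegree_lt (by omega), map_zero, and_self]
    exact zero_mem _
  by_contra n
  have z : ∀ r, rr A τ₁ (b r) = 0 := fun r => by_contra fun k => by
    have k0 : b r ≠ 0 := fun z => k (by
      rw [z, rr, Cf.ev_zero, rs_eq_zero (zero_mem A), map_zero]; exact one_pos)
    cases r with
    | zero => exact k0 b0
    | succ r =>
      rw [(eq_inv_mul_iff_mul_eq₀ k0).2 (eq_sub_of_add_eq (rc r))] at n
      exact n (mul_mem (inv_CC (m _).1 k) (sub_mem (m r).1 (m r).2))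
  have := u τ₁ g fun r => by
    have := z r
    rwa [← rc, rr_add (mul_mem (mem_CC.1 (m _).1).1 a) (mem_CC.1 (m _).2).1,
      rr_mul (mem_CC.1 (m _).1).1 a, z, zero_mul, zero_add] at this
  rw [map_one, ← map_one (algebraMap ℂ Mer), rr_const, rs_one] at this
  exact one_ne_zero this

end Ff

open Ff Vale.Agent.P022 P027M.M Vale.Agent.P022.H218.L3 in
theorem ffr : FFR := fun N hN z hz hf => by
  have l := lv4 hN
  have nz : NZ (N * 4) ![0, 1] := fun h => by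
    have := Int.le_of_dvd one_pos (h 1)
    omega
  have v := fun τ => val_iff.1 (val_r l nz τ)
  obtain ⟨M, hM, h⟩ := (mer l (MF_mono (gt_le N 4) hz) hf).and
    (mem l (Pre.rM_mem l nz) (fun τ => (v τ).1) (Pre.rM_FS l nz))
  refine ⟨M, hM, fun A e τ₁ τ₂ n a ha => ?_⟩
  obtain ⟨h1, h2⟩ := h A e
  obtain ⟨γ, hγ, le⟩ := hom l n.g1 n.g2 n.t
  have g := n.sep γ hγ (by simpa only [rr, (v _).2] using (mem_CC.1 (le h2)).2.2)
  simp only [val_iff, ← reg_MF hz g τ₁, ← ev_MF hz g τ₁]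
  constructor <;> rintro ⟨r, rfl⟩
  · obtain ⟨-, b, c⟩ := mem_CC.1 (h1 _ _ (gp_G0 hγ n.g1) le ⟨r, ha⟩)
    exact ⟨_, b.2, ⟨b.1, rfl⟩, c⟩
  · obtain ⟨-, b, c⟩ := mem_CC.1 (h1 _ _ n.g2 (fun _ k => CC_symm (le k)) ⟨r, ha⟩)
    exact ⟨_, b.2, ⟨b.1, rfl⟩, c⟩

end Vale.Agent.P004K
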