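import Vale.Agent.P004K.St3
import Vale.Agent.P004K.Tr
import Vale.Agent.P004K.Hg.Un
import Vale.Agent.P004K.Gm.Val
import Vale.Agent.P004Z.Ar.Prt

/-! # P004K: row HEEG -/

set_option autoImplicit false
set_option linter.all false

open UpperHalfPlane NumberField CongruenceSubgroup
open scoped MatrixGroups Classical

noncomputable section

namespace Vale.Agent.P004K

open Vale.Agent.P022 P027H P027M.M Vale.Agent.P022.H218.L3 WeierstrassCurve.Affine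
open P004Z (Tdiv)
open P004Z.EF (Val Par)
open P004M.TE (Pt ga Cv pa pa_inj ga_some crv_map)

namespace Hq

variable {A B : ℤ} {Λ : Submodule ℤ ℂ}

theorem ga_one (y : Pt A B) : ga 1 y = y := by
  rcases y with _ | ⟨a, b, h⟩
  · exact map_zero _
  · exact ga_some 1 h

theorem ex_pt (h : IsLat Λ) (h2 : g2 Λ = -4 * A) (h3 : g3 Λ = -4 * B)
    (d : 4 * A ^ 3 + 27 * B ^ 2 ≠ 0) {z : ℂ}
    (k : z ∉ Λ → IsAlgebraic ℚ (wp Λ z) ∧ IsAlgebraic ℚ (dwp Λ z / 2)) : ∃ y : Pt A B, Un Λ z y := by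
  by_cases hz : z ∈ Λ
  · exact ⟨0, fun _ => rfl, fun n => absurd hz n⟩
  obtain ⟨a, ha⟩ := ex_io (k hz).1
  obtain ⟨b, hb⟩ := ex_io (k hz).2
  have eA : algebraMap ℚ Qb (A : ℚ) = A := map_intCast _ A
  have eB : algebraMap ℚ Qb (B : ℚ) = B := map_intCast _ B
  refine ⟨.some a b ((equation_iff_nonsingular_of_Δ_ne_zero fun e => d ?_).1 ?_),
    fun n => absurd n hz, fun _ => ⟨a, b, _, rfl, ha, hb⟩⟩
  · simp only [WeierstrassCurve.Δ, WeierstrassCurve.b₂, WeierstrassCurve.b₄, WeierstrassCurve.b₆,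
      WeierstrassCurve.b₈, eA, eB] at e
    have : ((-16 * (4 * A ^ 3 + 27 * B ^ 2) : ℤ) : Qb) = 0 := by
      push_cast
      linear_combination e
    exact (mul_eq_zero.1 (Int.cast_eq_zero.1 this)).resolve_left (by norm_num)
  · rw [equation_iff]
    apply io_inj
    simp only [eA, eB, map_add, map_mul, map_pow, map_zero, map_intCast, ha, hb]
    linear_combination h.ode hz / 4 - wp Λ z / 4 * h2 - h3 / 4

theorem ex_tr (h : IsLat Λ) (h2 : g2 Λ = -4 * A) (h3 : g3 Λ = -4 * B) (σ : ℂ ≃+* ℂ) :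
    ∃ φ, Tr (σ : ℂ →+* ℂ) Λ Λ φ := by
  obtain ⟨Λ', φ, t⟩ := h.exists_tr σ
  obtain rfl : Λ' = Λ := t.lat'.ext_g h (by rw [t.g23.1, h2]; simp [map_ofNat])
    (by rw [t.g23.2, h3]; simp [map_ofNat])
  exact ⟨φ, t⟩

end Hq

open Hq in
theorem heeg (h1 : HG1) (h2 : HG2) (cg : CGE) : HEEG := by
  intro K _ _ j iq up N G a A B w Λ F x y I rn D cn
  have hN := rn.pos
  have eF : F = (w : ℂ)⁻¹ • P004N.Pr fun n => (a n : ℂ) :=
    funext fun z => by rw [D.I_eq, div_eq_inv_mul]; rfl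
  have hF : F ∈ Hol :=
    eF ▸ Subalgebra.smul_mem _ (P004Z.EF.prim_Pr rn.qe (by simp [rn.zero])).hol _
  have hT : ∀ l : ℕ, l.Prime → ¬ l ∣ N → Tdiv l F = (a l : ℂ) • F := fun l hl k => by
    rw [eF, map_smul, P004Z.Ar.tdiv_Pr hl rn.qe, smul_comm, ← P004Z.Ar.Pr_smul (a l)]
    exact congrArg (_ • P004N.Pr ·) (funext (rn.te l hl k))
  obtain ⟨ex, -, ker, U⟩ := Hg.un_iff D.lat D.g2_eq D.g3_eq
  have pi := pi_row N a A B w Λ F x y hN D hF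
  have inv : ∀ γ ∈ Gamma0 N, ∀ z, ex (F (γ • z)) = ex (F z) := fun γ m z => by
    rw [← sub_eq_zero, ← map_sub, ker]
    exact pi 1 id ⟨D.lat, D.lat, fun _ => Iff.rfl, fun _ _ => by simp, fun z => ⟨z, by simp⟩,
      fun _ => rfl, fun _ => rfl⟩ _ _ ((cj0_one hN).2 ⟨γ, m, rfl⟩)
  have key : ∀ c, ∃ Y : Pt A B, 0 < c → c.Coprime N → ∀ g σ τ τ', Ex σ g → Hp (JJ j) N I c τ →
      Cj0 σ N τ τ' → ex (F τ') = pa io (ga g Y) := fun c => by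
    by_cases k : 0 < c ∧ c.Coprime N
    swap
    · exact ⟨0, fun p q => absurd ⟨p, q⟩ k⟩
    obtain ⟨⟨τ, hτ⟩, uq, -, fx, -⟩ := h1 K j iq N c I hN k.1 k.2 cn
    have al : ∀ f ∈ MF (Gamma0 N), (∃ s, H236.L3.ExM 1 s f ∧ P004Z.EF.RatS s) → ∀ v, Val τ f v →
        IsAlgebraic ℚ v := fun f m ⟨s, p, q⟩ v e =>
      Gm.alg_of_fin (Set.finite_singleton v) fun σ hσ => ((val_iff.1 (tr0 σ N τ τ hN
        ((fx τ σ 1 (one_mem _) hτ fun b => hσ _ (alg_io b)).1 (one_mem _)) f m s p q v e)).2.symm.trans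
          (val_iff.1 e).2 :)
    obtain ⟨Y, hY⟩ := ex_pt D.lat D.g2_eq D.g3_eq D.disc (z := F τ) fun n =>
      ⟨al x D.xm D.xq _ (D.xv τ n), al y D.ym D.yq _ (D.yv τ n)⟩
    refine ⟨Y, fun _ _ g σ s s' e hs r => ?_⟩
    obtain ⟨φ, t⟩ := ex_tr D.lat D.g2_eq D.g3_eq σ
    obtain ⟨γ, m, rfl⟩ := (uq τ s hτ).1 hs
    rw [← (U _ _).1 ((un A B Λ D.lat D.g2_eq D.g3_eq).2.2 (F (γ • τ)) Y σ g φ
      ((U _ _).2 ((inv γ m τ).trans ((U _ _).1 hY))) e t), eq_comm, ← sub_eq_zero, ← map_sub, ker]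
    exact pi σ φ t _ _ r
  choose Y hY using key
  obtain ⟨M, M0, hM⟩ := cg K j iq N a A B w Λ F x y I hN D hF cn
  refine ⟨Y, M, M0, fun c c0 cc => ?_⟩
  obtain ⟨⟨τ, hτ⟩, -, -, fx, -⟩ := h1 K j iq N c I hN c0 cc cn
  have y0 : ex (F τ) = pa io (Y c) := by
    simpa only [ga_one] using hY c c0 cc 1 1 τ τ Ex.one hτ (Cj0.refl hN τ)
  refine ⟨fun g σ s s' e p q => (U _ _).2 (hY c c0 cc g σ s s' e p q), fun g m => ?_,
    fun l n t hl nd gen => ?_⟩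
  · obtain ⟨σ, e⟩ := ex_ex g
    exact pa_inj io ((hY c c0 cc g σ τ τ e hτ ((fx τ σ g m.1 hτ e).1 m)).symm.trans y0)
  have nN : ¬ l ∣ N := fun k => nd (k.mul_left c)
  have l0 := Nat.mul_pos c0 hl.pos
  have lc : (c * l).Coprime N := cc.mul_left (hl.coprime_iff_not_dvd.2 nN)
  obtain ⟨⟨τ', hτ'⟩, -⟩ := h1 K j iq N (c * l) I hN l0 lc cn
  obtain ⟨σ, e⟩ := ex_ex t
  choose v hv using fun i : ℕ => ex_cj0 (σ ^ i) hN τ'
  obtain ⟨k1, k2⟩ := h2 K j iq up N c l n I t σ τ τ' v hN c0 cc cn hl nd gen e hτ hτ' hv _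
    (fun z => ex (F z)) inv
  have s1 : pa io (∑ i ∈ Finset.range n, ga (t ^ i) (Y (c * l))) =
      ∑ i ∈ Finset.range n, ex (F (v i)) := by
    rw [map_sum]
    exact Finset.sum_congr rfl fun i _ => (hY _ l0 lc _ _ _ _ (e.pow i) hτ' (hv i)).symm
  have s2 : Tl l (fun z => ex (F z)) τ = pa io (a l • Y c) := by
    rw [map_zsmul, ← y0, ← map_zsmul, zsmul_eq_mul, ← smul_eq_mul, ← Pi.smul_apply, ← hT l hl nN,
      Tl, ← map_sum, ← map_add]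
    rfl
  refine ⟨fun pr => ⟨pa_inj io (s1.trans ((k1 pr).trans s2)), fun nM P hP lP φ fr => ?_⟩,
    fun L L' g g' p q r s u u' => pa_inj io ?_⟩
  · obtain ⟨ρ, eρ⟩ := ex_ex φ
    obtain ⟨τ'', r⟩ := ex_cj0 ρ hN τ
    refine hM c l c0 cc hl nd nM pr P hP lP φ ρ fr eρ τ τ' τ'' hτ hτ' r _ ((U _ _).2 ?_)
    rw [map_sub, map_sub, hY c c0 cc φ ρ τ τ'' eρ hτ r,
      hY _ l0 lc 1 1 τ' τ' Ex.one hτ' (Cj0.refl hN τ'), ga_one]
  · obtain ⟨ρ, eρ⟩ := ex_ex g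
    obtain ⟨ρ', eρ'⟩ := ex_ex g'
    obtain ⟨z, hz⟩ := ex_cj0 ρ hN τ
    obtain ⟨z', hz'⟩ := ex_cj0 ρ' hN τ
    rw [s1, map_sub, map_sub, ← s2, ← k2 L L' g g' ρ ρ' z z' p q r s u u' eρ eρ' hz hz',
      ← hY c c0 cc g ρ τ z eρ hτ hz, ← hY c c0 cc g' ρ' τ z' eρ' hτ hz']
    abel

end Vale.Agent.P004K
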