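import Vale.Agent.P004K.Rc.All
import Vale.Agent.P004K.Heeg
import Vale.Agent.P004K.Cg
import Vale.Agent.P004K.Cm
import Vale.Agent.P004K.Ff
import Vale.Agent.P004K.Hg.Bd

/-! # P004K: the Euler system of Heegner points, closed terms -/

set_option autoImplicit false

namespace Vale.Agent.P004K

theorem y_hg1 : HG1 := hg1 Rc.iq jh x_rc1 cj0

theorem y_hg2 : HG2 := hg2 Rc.iq jh x_rc1 x_rc2 cj0

theorem y_bd0 : BD0 := bd0 Rc.iq jh x_rc1 x_rc2 trx cj0

theorem y_bdl : BDL := bdl Rc.iq jh x_rc1 x_rc2 trx cj0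

theorem y_cge : CGE := cge_of ffr cmr

theorem y_heeg : HEEG := heeg y_hg1 y_hg2 y_cge

end Vale.Agent.P004K
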