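import Vale.Agent.P004K.Ff0
import Vale.Agent.P004K.Gm.Iso

/-! # P004K: the generators at a good model -/

set_option autoImplicit false

open UpperHalfPlane CongruenceSubgroup Matrix
open scoped MatrixGroups

noncomputable section

namespace Vale.Agent.P004K.Cm1

open Vale.Agent.P022 P027H P027M.M Vale.Agent.P022.H218.L3 Gm Vale.Agent.P022K.Sh

variable {A : ValuationSubring ℂ} {Λ : Submodule ℤ ℂ} {W : WeierstrassCurve ℂ} {τ : ℍ} {L : ℕ}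
  {μ : ℂ} {v w : Fin 2 → ℤ} (hL : Lv L)
include hL

theorem rf_congr (h : ¬ NZ L (v - w)) : rf L v τ = rf L w τ := by
  rw [rf, rf, (isLat τ).wp_congr (z := zt L v τ) (zt_sub L v w τ ▸ (zt_mem hL.pos).2 h)]

theorem rf_law (hv : NZ L v) {γ : SL(2, ℤ)} (h : γ ∈ G0) (τ : ℍ) :
    rf L v (γ • τ) = rf L (v ᵥ* (γ : M2)) τ := by
  rw [← (val_iff.1 (val_r hL hv _)).2, ← (val_iff.1 (val_r hL (hv.vecMul γ) _)).2,
    ← Pre.law hL hv h, ev_act, inv_inv]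

theorem tf_eq (τ : ℍ) : tf τ = -(rf L (p2 L) τ + rf L (p3 L) τ) := by
  have := (Ff.val_t τ).add (MVal.add (val_r hL (Pre.nz2 hL) τ) (val_r hL (Pre.nz3 hL) τ))
  rw [Pre.t_eq hL, show ∀ a b : Mer, -a - b + (a + b) = 0 from fun a b => by ring] at this
  exact eq_neg_of_add_eq_zero_left (this.unique (.zero τ))

theorem rf_mul (τ : ℍ) : rf L (p2 L) τ * rf L (p3 L) τ = 1 := by
  have e := (rb1 sa3).1 τ
  have d := den_r hL τ
  have c : ((2 * Real.pi * Complex.I) ^ 2 : ℂ)⁻¹ ^ 2 ≠ 0 := by simp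
  rw [Pre.Af_eq hL, alf, bef, Wf, Wf, Wf, ← Pre.xv1 hL, ← Pre.xv2 hL, ← Pre.xv3 hL, xv, xv, xv,
    xv] at e
  rw [rf, rf, div_mul_div_comm, div_eq_one_iff_eq (mul_ne_zero d d)]
  exact mul_left_cancel₀ c (by linear_combination -e)

variable (vL : A.valuation L = 1) (H : Hom μ (lat τ) Λ) (G : Gd A Λ W)
include vL H G

theorem nsk (hv : NZ L v) : ¬ Sk A Λ W (μ * zt L v τ) := fun h => by
  have L0 : (L : ℂ) ≠ 0 := Nat.cast_ne_zero.2 hL.pos.ne'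
  refine (zt_mem hL.pos).1 ((H.2 _).2 ((iso A Λ W Λ W L G G L0 fun _ => nat_mul_mem L).2.1.1 vL _ h
    (mem_of_eq ((H.2 _).1 (lin_lat τ (v 0) (v 1))) ?_))) hv
  rw [zt]
  field_simp

theorem xb_ne (hv : NZ L v) (hw : NZ L w) (h1 : NZ L (v - w)) (h2 : NZ L (v + w)) :
    xb A Λ W (μ * zt L v τ) ≠ xb A Λ W (μ * zt L w τ) := by
  rw [Ne, xb_eq G (nsk hL vL H G hv) (nsk hL vL H G hw), ← mul_sub, ← mul_add, ← zt_sub, ← zt_add]
  exact not_or.2 ⟨nsk hL vL H G h1, nsk hL vL H G h2⟩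

theorem xb41 : xb A Λ W (μ * zt L (p4 L) τ) - xb A Λ W (μ * zt L (p1 L) τ) ≠ 0 :=
  sub_ne_zero.2 (xb_ne hL vL H G (Pre.nz4 hL) (Pre.nz1 hL) (Pre.nz41 hL) (Pre.nz41' hL))

theorem rf_red (hv : NZ L v) : rf L v τ ∈ A ∧ rs A (rf L v τ) =
    (xb A Λ W (μ * zt L v τ) - xb A Λ W (μ * zt L (p1 L) τ)) /
      (xb A Λ W (μ * zt L (p4 L) τ) - xb A Λ W (μ * zt L (p1 L) τ)) := by
  have m := fun {v} (h : NZ L v) => xx_mem (nsk hL vL H G h)
  have m1 := sub_mem (m hv) (m (Pre.nz1 hL))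
  have m2 := sub_mem (m (Pre.nz4 hL)) (m (Pre.nz1 hL))
  have d := xb41 hL vL H G
  simp only [xb, ← rs_sub (m hv) (m (Pre.nz1 hL)), ← rs_sub (m (Pre.nz4 hL)) (m (Pre.nz1 hL))]
    at d ⊢
  have e : rf L v τ * (xx Λ W (μ * zt L (p4 L) τ) - xx Λ W (μ * zt L (p1 L) τ)) =
      xx Λ W (μ * zt L v τ) - xx Λ W (μ * zt L (p1 L) τ) := by
    have := den_r hL τ
    simp only [rf, xx, H.wp, sub_sub_sub_cancel_right, ← mul_sub]
    field_simp
  have m3 : rf L v τ ∈ A := by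
    rwa [← e, ← A.valuation_le_one_iff, map_mul, (rs_ne_zero m2).1 d, mul_one,
      A.valuation_le_one_iff] at m1
  exact ⟨m3, by rw [eq_div_iff d, ← rs_mul m3 m2, e]⟩

theorem rf_sep (hv : NZ L v) (hw : NZ L w) (e : rs A (rf L v τ) = rs A (rf L w τ)) :
    ¬ NZ L (v - w) ∨ ¬ NZ L (v + w) := by
  rw [(rf_red hL vL H G hv).2, (rf_red hL vL H G hw).2, div_left_inj' (xb41 hL vL H G),
    sub_left_inj] at e
  exact not_and_or.1 fun h => xb_ne hL vL H G hv hw h.1 h.2 e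

theorem gp : Gp A τ := by
  have a := (rf_red hL vL H G (Pre.nz2 hL)).1
  have b := (rf_red hL vL H G (Pre.nz3 hL)).1
  have : tf τ ^ 2 - 4 = (rf L (p2 L) τ - rf L (p3 L) τ) ^ 2 := by
    rw [tf_eq hL]
    linear_combination 4 * rf_mul hL τ
  refine ⟨tf_eq hL τ ▸ neg_mem (add_mem a b), ?_⟩
  rw [this, map_pow, (rs_ne_zero (sub_mem a b)).1, one_pow]
  rw [rs_sub a b, sub_ne_zero]
  intro e
  obtain ⟨h0, k, rfl⟩ := id hL
  refine (rf_sep hL vL H G (Pre.nz2 hL) (Pre.nz3 hL) e).elim (fun h => h ?_) fun h => h ?_ <;>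
    refine Pre.nz_of 1 ?_ ?_ <;>
    simp only [p2, p3, Pi.sub_apply, Pi.add_apply, cons_val_one, cons_val_zero, abs_lt] <;> omega

end Vale.Agent.P004K.Cm1
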