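import Vale.Agent.P004K.Cm1

/-! # P004K: the Frobenius conjugate of a point of `Y(L)` -/

set_option autoImplicit false

open UpperHalfPlane CongruenceSubgroup Matrix
open scoped MatrixGroups

noncomputable section

namespace Vale.Agent.P004K.Cm1

open Vale.Agent.P022 P027H P027M.M Vale.Agent.P022.H218.L3 Gm

variable {A : ValuationSubring ℂ} {Λ : Submodule ℤ ℂ} {W : WeierstrassCurve ℂ} {τ₀ τ₁ : ℍ}
  {N l : ℕ} {μ : ℂ} {σ : ℂ ≃+* ℂ}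

theorem nr (hN : 0 < N) (lo : Odd l) (vL : A.valuation (N * 4 : ℕ) = 1) (H : Hom μ (lat τ₁) Λ)
    (G : Gd A Λ W) (F : Fr A σ l) {q : P004Z.Fm} (q0 : q ≠ 0) (hq : P004Z.evq q τ₀ = 0)
    (m : ∀ v, NZ (N * 4) v → rf (N * 4) v τ₀ ∈ A)
    (h : ∀ a b : ℤ, NZ (N * 4) ![a, b] →
      rs A (rf (N * 4) ![l * a, b] τ₁) = rs A (rf (N * 4) ![a, b] τ₀) ^ l) :
    ∃ τ₂, Cj0 σ N τ₀ τ₂ ∧ Nr A N τ₁ τ₂ := by
  have hL := lv4 hN
  obtain ⟨τ₂, r⟩ := trc hL σ τ₀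
  obtain ⟨k, hk⟩ := ex_cy σ hL.pos
  have co := hk.cop hL.pos
  have K : ∀ a b : ℤ, NZ (N * 4) ![a, b] → rf (N * 4) ![a, k * b] τ₂ ∈ A ∧
      rs A (rf (N * 4) ![a, k * b] τ₂) = rs A (rf (N * 4) ![l * a, b] τ₁) := fun a b hv => by
    have hv' := Galx.nz_tw co hv
    have e := (r _ (Pre.rM_mem hL hv) _ (Pre.rM_mem hL hv') (aut_r hL hk hv)).2
    rw [(val_iff.1 (val_r hL hv _)).2, (val_iff.1 (val_r hL hv' _)).2] at e
    have f := F _ (alg τ₀ q q0 hq _ (Pre.rM_FS hL hv) _ (val_r hL hv _))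
    rw [← e] at f
    exact ⟨f.1.2 (m _ hv), (f.2 (m _ hv)).trans (h a b hv).symm⟩
  obtain ⟨u, w, e⟩ := id co
  obtain ⟨s, hs⟩ : Odd k := Int.not_even_iff_odd.1 fun ⟨s, hs⟩ => by
    have : 2 * (u * s + w * N * 2) = 1 := by rw [← e, hs]; push_cast; ring
    omega
  obtain ⟨t, ht⟩ := lo
  have K' : ∀ a b : ℤ, NZ (N * 4) ![a, b] → ((N * 4 : ℕ) : ℤ) ∣ 2 * a → ((N * 4 : ℕ) : ℤ) ∣ 2 * b →
      rf (N * 4) ![a, b] τ₂ ∈ A ∧ rs A (rf (N * 4) ![a, b] τ₂) = rs A (rf (N * 4) ![a, b] τ₁) :=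
    fun a b hv ha hb => by
      have := K a b hv
      rwa [rf_congr hL (w := ![a, b]) fun z => z (Fin.forall_fin_two.2 ⟨by simp,
        (hb.mul_left s).trans (dvd_of_eq (by simp [hs]; ring))⟩),
        rf_congr hL (v := ![l * a, b]) (w := ![a, b]) fun z => z (Fin.forall_fin_two.2
        ⟨(ha.mul_left t).trans (dvd_of_eq (by simp [ht]; ring)), by simp⟩)] at this
  have d : ((N * 4 : ℕ) : ℤ) ∣ 2 * ((N * 4 / 2 : ℕ) : ℤ) := dvd_of_eq (by omega)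
  obtain ⟨a2, b2⟩ := K' _ 0 (Pre.nz2 hL) d (dvd_zero _)
  obtain ⟨a3, b3⟩ := K' _ _ (Pre.nz3 hL) d d
  have c2 := (rf_red hL vL H G (Pre.nz2 hL)).1
  have c3 := (rf_red hL vL H G (Pre.nz3 hL)).1
  have g1 := gp hL vL H G
  have m2 : tf τ₂ ∈ A := tf_eq hL τ₂ ▸ neg_mem (add_mem a2 a3)
  have et : rs A (tf τ₁) = rs A (tf τ₂) := by
    rw [tf_eq hL, tf_eq hL, ← zero_sub, ← zero_sub, rs_sub (zero_mem A) (add_mem c2 c3), p2, p3,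
      rs_sub (zero_mem A) (add_mem a2 a3), rs_add a2 a3, b2, b3]
    exact congrArg _ (rs_add c2 c3)
  have o4 : (4 : ℂ) ∈ A := ofNat_mem A 4
  refine ⟨τ₂, (r.cj hL hk).cj0 hL.pos (Dvd.intro _ rfl), g1, ⟨m2, ?_⟩, et, fun γ hγ z => ?_⟩
  · rw [← rs_ne_zero (sub_mem (pow_mem m2 2) o4), rs_sub (pow_mem m2 2) o4, rs_pow m2, ← et,
      ← rs_pow g1.1, ← rs_sub (pow_mem g1.1 2) o4, rs_ne_zero (sub_mem (pow_mem g1.1 2) o4), g1.2]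
  have n1 : ¬ ((N * 4 : ℕ) : ℤ) ∣ 1 := fun h => by
    have := Int.le_of_dvd one_pos h
    omega
  have nu : ∀ a, NZ (N * 4) ![a, u] := fun a h =>
    n1 (e ▸ dvd_add ((h 1).mul_right k) (dvd_mul_left _ w))
  have n0 : NZ (N * 4) ![0, 1] := fun h => n1 (h 1)
  rw [rf_law hL n0 hγ, rf_congr hL (w := ![0, k * u]) fun z => z (Fin.forall_fin_two.2
    ⟨by simp, w, by simp only [Pi.sub_apply, cons_val_one, cons_val_zero]; linear_combination -e⟩),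
    (K 0 u (nu 0)).2] at z
  refine mem_G0.2 ((Dvd.intro (4 : ℤ) (by push_cast; ring)).trans (b := ((N * 4 : ℕ) : ℤ)) ?_)
  rcases rf_sep hL vL H G (nu _) (n0.vecMul γ) z with z | z <;>
    simpa [vecMul, dotProduct] using not_not.1 z 0

end Vale.Agent.P004K.Cm1
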