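import Vale.Agent.P004K.St4

/-! # P004K: modular functions at a place of `ℂ`, tools -/

set_option autoImplicit false

open UpperHalfPlane CongruenceSubgroup Polynomial Filter
open scoped MatrixGroups IntermediateField

noncomputable section

namespace Vale.Agent.P004K.Ff

open Vale.Agent.P022 P027M.M Vale.Agent.P022.H218.L3
open Vale.Agent.P022K.F0.Cf (od ev Reg jm pl)
open Vale.Agent.P022K.F0 Vale.Agent.P022K.Sh Gm
open P004Z.EF (Val)

variable {A : ValuationSubring ℂ} {τ τ₁ τ₂ : ℍ} {x y : Mer} {L : ℕ}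

theorem vinv (h : Reg τ x) (e : ev τ x ≠ 0) : Reg τ x⁻¹ ∧ ev τ x⁻¹ = (ev τ x)⁻¹ :=
  mval_iff.1 (MVal.inv (mval_iff.2 ⟨h, rfl⟩) e)

theorem cA {c : ℂ} (h : c ∈ A) : Reg τ (algebraMap ℂ Mer c) ∧ ev τ (algebraMap ℂ Mer c) ∈ A :=
  ⟨Cf.reg_const .., (Cf.ev_const τ c).symm ▸ h⟩

/-- the functions with a value in `A` -/
def VA (A : ValuationSubring ℂ) (τ : ℍ) : ValuationSubring Mer where
  carrier := {x | Reg τ x ∧ ev τ x ∈ A}
  mul_mem' a b := ⟨a.1.mul b.1, Cf.ev_mul a.1 b.1 ▸ mul_mem a.2 b.2⟩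
  add_mem' a b := ⟨a.1.add b.1, Cf.ev_add a.1 b.1 ▸ add_mem a.2 b.2⟩
  one_mem' := map_one (algebraMap ℂ Mer) ▸ cA (one_mem A)
  zero_mem' := map_zero (algebraMap ℂ Mer) ▸ cA (zero_mem A)
  neg_mem' {x} a := by
    have b := cA (τ := τ) (neg_mem (one_mem A))
    have c := mul_mem b.2 a.2
    rw [← Cf.ev_mul b.1 a.1] at c
    simpa using And.intro (b.1.mul a.1) c
  mem_or_inv_mem' x := by
    by_cases h : Reg τ x
    · refine or_iff_not_imp_left.2 fun k => ?_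
      have k := mt (And.intro h) k
      have := vinv h fun e => k (e ▸ zero_mem A)
      exact ⟨this.1, this.2 ▸ (A.mem_or_inv_mem _).resolve_left k⟩
    · have r : Reg τ x⁻¹ := ((pl τ).mem_or_inv_mem x).resolve_left h
      exact .inr ⟨r, by_contra fun k => h (inv_inv x ▸ (vinv r fun e => k (e ▸ zero_mem A)).1)⟩

/-- the residue of the value -/
def rr (A : ValuationSubring ℂ) (τ : ℍ) (x : Mer) : kk A := rs A (ev τ x)

theorem rr_mul (a : x ∈ VA A τ) (b : y ∈ VA A τ) : rr A τ (x * y) = rr A τ x * rr A τ y := by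
  rw [rr, Cf.ev_mul a.1 b.1, rs_mul a.2 b.2, rr, rr]

theorem rr_add (a : x ∈ VA A τ) (b : y ∈ VA A τ) : rr A τ (x + y) = rr A τ x + rr A τ y := by
  rw [rr, Cf.ev_add a.1 b.1, rs_add a.2 b.2, rr, rr]

theorem rr_const (c : ℂ) : rr A τ (algebraMap ℂ Mer c) = rs A c := by rw [rr, Cf.ev_const]

/-- the residue as a homomorphism -/
def rh {S : Subring Mer} (h : ∀ x ∈ S, x ∈ VA A τ) : S →+* kk A :=
  RingHom.mk' ⟨⟨fun x => rr A τ x, by simpa [rs_one] using rr_const (A := A) (τ := τ) 1⟩,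
    fun a b => rr_mul (h _ a.2) (h _ b.2)⟩ fun a b => rr_add (h _ a.2) (h _ b.2)

theorem inv_VA (a : x ∈ VA A τ) (h : rr A τ x ≠ 0) : x⁻¹ ∈ VA A τ ∧ rr A τ x⁻¹ = (rr A τ x)⁻¹ := by
  have v := (rs_ne_zero a.2).1 h
  have e : ev τ x ≠ 0 := fun e => by simp [e] at v
  obtain ⟨r, k⟩ := vinv a.1 e
  have m : (ev τ x)⁻¹ ∈ A := by rw [← A.valuation_le_one_iff, map_inv₀, v, inv_one]
  exact ⟨⟨r, k ▸ m⟩, eq_inv_of_mul_eq_one_left (by
    rw [rr, rr, k, ← rs_mul m a.2, inv_mul_cancel₀ e, rs_one])⟩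

/-- the functions with congruent values -/
def CC (A : ValuationSubring ℂ) (τ₁ τ₂ : ℍ) : Subring Mer :=
  ((rh (S := (VA A τ₁).toSubring ⊓ (VA A τ₂).toSubring) fun _ h => h.2).eqLocus
    (rh fun _ h => h.1)).map (Subring.subtype _)

theorem mem_CC : x ∈ CC A τ₁ τ₂ ↔ x ∈ VA A τ₁ ∧ x ∈ VA A τ₂ ∧ rr A τ₂ x = rr A τ₁ x :=
  ⟨by rintro ⟨x, h, rfl⟩; exact ⟨x.2.1, x.2.2, h⟩, fun h => ⟨⟨x, h.1, h.2.1⟩, h.2.2, rfl⟩⟩

theorem CC_symm (h : x ∈ CC A τ₁ τ₂) : x ∈ CC A τ₂ τ₁ :=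
  let ⟨a, b, c⟩ := mem_CC.1 h
  mem_CC.2 ⟨b, a, c.symm⟩

theorem inv_CC (a : x ∈ CC A τ₁ τ₂) (h : rr A τ₁ x ≠ 0) : x⁻¹ ∈ CC A τ₁ τ₂ := by
  obtain ⟨a, b, c⟩ := mem_CC.1 a
  have u := inv_VA a h
  have w := inv_VA b (c ▸ h)
  exact mem_CC.2 ⟨u.1, w.1, by rw [u.2, w.2, c]⟩

theorem c_CC {c : ℂ} (h : c ∈ A) : algebraMap ℂ Mer c ∈ CC A τ₁ τ₂ :=
  mem_CC.2 ⟨cA h, cA h, by rw [rr_const, rr_const]⟩

theorem val_t (τ : ℍ) : MVal τ tM (tf τ) := Pre.tM_eq ▸ MVal.jm τ _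

theorem t_mem : tM ∈ MF G0 :=
  (rb2 sa3 (rb1 sa3)).ge (IntermediateField.mem_adjoin_simple_self ℂ tM)

theorem tf_G0 {γ : SL(2, ℤ)} (h : γ ∈ G0) (τ : ℍ) : tf (γ • τ) = tf τ := by
  rw [← (mval_iff.1 (val_t _)).2, ev_MF t_mem h, (mval_iff.1 (val_t _)).2]

section

variable {k : Type} [Field k] (ι : k →+* ℂ)

/-- polynomials in the Hauptmodul -/
def ph : k[X] →+* Mer := eval₂RingHom ((algebraMap ℂ Mer).comp ι) tM

theorem ph_C (a : k) : ph ι (C a) = algebraMap ℂ Mer (ι a) := eval₂_C _ _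

theorem ph_X : ph ι X = tM := eval₂_X _ _

theorem val_ph (τ : ℍ) (p : k[X]) : MVal τ (ph ι p) (p.eval₂ ι (tf τ)) := by
  induction p using Polynomial.induction_on with
  | C a => rw [ph_C, eval₂_C]; exact .const ..
  | add p q a b => rw [map_add, eval₂_add]; exact a.add b
  | monomial n a h =>
    rw [pow_succ, ← mul_assoc, map_mul, eval₂_mul, ph_X, eval₂_X]
    exact h.mul (val_t τ)

theorem ev2_mem {R : Type} [CommRing R] {f : R →+* Mer} {S : Subring Mer} {p : R[X]} (hx : x ∈ S)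
    (h : ∀ n, f (p.coeff n) ∈ S) : p.eval₂ f x ∈ S := by
  rw [eval₂_eq_sum]
  exact sum_mem fun n _ => mul_mem (h n) (pow_mem hx n)

theorem ph_lin (a : k) : ph ι (X + C a) ≠ 0 := fun e => by
  have v := fun τ => (e ▸ val_ph ι τ (X + C a)).unique (.zero τ)
  obtain ⟨s, h⟩ := rb4 sa3 sa4 (rb1 sa3) 0 (by norm_num) (by norm_num)
  obtain ⟨t, h'⟩ := rb4 sa3 sa4 (rb1 sa3) 1 (by norm_num) (by norm_num)
  have a := v s
  have b := v t
  rw [eval₂_add, eval₂_X, eval₂_C] at a b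
  exact one_ne_zero (α := ℂ) (by linear_combination b - a + h - h')

variable [IsAlgClosed k]

theorem ph_inj : Function.Injective (ph ι) := by
  refine (injective_iff_map_eq_zero _).2 fun q => ?_
  induction IsAlgClosed.splits q using Submonoid.closure_induction with
  | mem p hp =>
    rcases hp with ⟨a, rfl⟩ | ⟨a, rfl⟩
    · simp [ph_C]
    · exact fun e => absurd e (ph_lin ι a)
  | one => simp
  | mul p q _ _ hp hq =>
    rw [map_mul, mul_eq_zero, mul_eq_zero]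
    exact Or.imp hp hq

/-- holomorphic rational functions of the Hauptmodul -/
theorem invw {p q : k[X]} (hx : ∀ τ, Reg τ x) (e : x = ph ι p / ph ι q) :
    ∃ (m : ℕ) (P : k[X]), x * ph ι ((X ^ 2 - 4) ^ m) = ph ι P := by
  obtain rfl | q0 := eq_or_ne q 0
  · exact ⟨0, 0, by simp [e]⟩
  rw [eq_div_iff ((map_ne_zero_iff _ (ph_inj ι)).2 q0)] at e
  induction IsAlgClosed.splits q using Submonoid.closure_induction generalizing x p with
  | mem q hq =>
    rcases hq with ⟨a, rfl⟩ | ⟨a, rfl⟩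
    · refine ⟨0, p * C a⁻¹, ?_⟩
      rw [map_mul, ← e, mul_assoc, ← map_mul, ← map_mul, mul_inv_cancel₀ (C_ne_zero.1 q0), C_1,
        pow_zero]
    by_cases h : a ^ 2 = 4
    · refine ⟨1, p * (X - C a), ?_⟩
      rw [map_mul, ← e, mul_assoc, ← map_mul, ← map_ofNat C 4, ← h, C_pow]
      congr 2
      ring
    have h' : ∀ b : k, b ^ 2 = 4 → ι (-a) ≠ ι b := fun b hb e => h (by
      rw [← hb, ← ι.injective e, neg_sq])
    obtain ⟨s, hs⟩ := rb4 sa3 sa4 (rb1 sa3) (ι (-a)) (map_ofNat ι 2 ▸ h' 2 (by norm_num))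
      (by simpa only [map_neg ι 2, map_ofNat] using h' (-2) (by norm_num))
    have v := (e ▸ (mval_iff.2 ⟨hx s, rfl⟩).mul (val_ph ι s (X + C a))).unique (val_ph ι s p)
    rw [hs, eval₂_hom, eval₂_hom] at v
    obtain ⟨r, rfl⟩ := dvd_iff_isRoot.2 (show p.IsRoot (-a) from ι.injective (by simp [← v]))
    refine ⟨0, r, mul_right_cancel₀ (ph_lin ι a) ?_⟩
    rw [pow_zero, map_one, mul_one, e, ← map_mul, C_neg, sub_neg_eq_add, mul_comm]
  | one => exact ⟨0, p, by rwa [pow_zero]⟩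
  | mul q r _ _ hq hr =>
    have R := fun u τ => (hx τ).mul (mval_iff.1 (val_ph ι τ u)).1
    obtain ⟨m, P, h⟩ := hr (R q) (by rw [mul_assoc, ← map_mul, e]) (right_ne_zero_of_mul q0)
    obtain ⟨n, Q, h'⟩ := hq (R _) (by rw [mul_right_comm, h]) (left_ne_zero_of_mul q0)
    exact ⟨m + n, Q, by rw [← h', pow_add, map_mul, mul_assoc]⟩

end

/-- a polynomial with integral values at the good points is integral -/
theorem coef (P : ℂ[X]) (h : ∀ a ∈ A, A.valuation (a ^ 2 - 4) = 1 → P.eval a ∈ A) (n : ℕ) :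
    P.coeff n ∈ A := by
  obtain ⟨c, R, Q, rfl, m, u⟩ : ∃ (c : ℂ) (R Q : A[X]), P = C c * R.map A.subtype ∧ Q.Monic ∧
      ∀ a, IsUnit (Q.eval a) → IsUnit (R.eval a) := by
    clear h
    induction IsAlgClosed.splits P using Submonoid.closure_induction with
    | mem p hp =>
      rcases hp with ⟨a, rfl⟩ | ⟨a, rfl⟩
      · exact ⟨a, 1, 1, by simp, monic_one, fun _ => id⟩
      by_cases h : a ∈ A
      · exact ⟨1, X + C ⟨a, h⟩, _, by simp, monic_X_add_C _, fun _ => id⟩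
      have a0 : a ≠ 0 := fun e => h (e ▸ zero_mem A)
      refine ⟨a, 1 + C ⟨_, (A.mem_or_inv_mem a).resolve_left h⟩ * X, 1, ?_, monic_one,
        fun b _ => (A.valuation_eq_one_iff _).2 ?_⟩
      · simp [mul_add, ← mul_assoc, ← C_mul, a0, add_comm]
      · rw [← A.valuation_le_one_iff, not_le] at h
        simp only [eval_add, eval_one, eval_mul, eval_C, eval_X]
        refine A.valuation.map_one_add_of_lt (x := a⁻¹ * b) ?_
        rw [map_mul, map_inv₀]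
        exact mul_lt_one_of_lt_of_le (inv_lt_one_of_one_lt₀ h) (A.valuation_le_one b)
    | one => exact ⟨1, 1, 1, by simp, monic_one, fun _ => id⟩
    | mul p q _ _ hp hq =>
      obtain ⟨c, R, Q, rfl, m, u⟩ := hp
      obtain ⟨c', R', Q', rfl, m', u'⟩ := hq
      refine ⟨c * c', R * R', Q * Q', by simp [mul_mul_mul_comm], m.mul m', fun a ha => ?_⟩
      rw [eval_mul, IsUnit.mul_iff] at ha ⊢
      exact ⟨u a ha.1, u' a ha.2⟩
  have d : (1 : A[X]).degree < (Q * (X ^ 2 - C 4)).degree := by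
    rw [(monic_X_pow_sub_C _ two_ne_zero).degree_mul, degree_X_pow_sub_C two_pos,
      degree_eq_natDegree m.ne_zero, degree_one]
    exact_mod_cast Nat.succ_pos _
  have M := ((m.mul (monic_X_pow_sub_C 4 two_ne_zero)).sub_of_left d)
  obtain ⟨a, ha⟩ := IsAlgClosed.exists_root (_ : ℂ[X]) (by
    rw [M.degree_map A.subtype, degree_sub_eq_left_of_degree_lt d]
    exact (degree_one (R := A) ▸ d).ne')
  lift a to A using int_mem A (M.map _) (fun n => by rw [coeff_map]; exact Subtype.property _) ha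
  have ev : ∀ p : A[X], (p.map A.subtype).eval (a : ℂ) = p.eval a := fun p =>
    eval_map_apply A.subtype a
  have e : Q.eval a * (a ^ 2 - 4) = 1 := by
    simpa [sub_eq_zero] using (ZeroMemClass.coe_eq_zero.1 ((ev _).symm.trans ha))
  have := h a a.2 ((A.valuation_eq_one_iff _).1 (IsUnit.of_mul_eq_one_right _ e))
  rw [eval_mul, eval_C, ev, ← A.valuation_le_one_iff, map_mul,
    (A.valuation_eq_one_iff _).1 (u a (IsUnit.of_mul_eq_one _ e)), mul_one,
    A.valuation_le_one_iff] at this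
  rw [coeff_C_mul, coeff_map]
  exact mul_mem this (Subtype.property _)

end Vale.Agent.P004K.Ff
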