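import Vale.Agent.P004K.St2

/-! # P004K: the congruence for Heegner points at inert primes (row) -/

set_option autoImplicit false

open UpperHalfPlane NumberField
open scoped Classical

noncomputable section

namespace Vale.Agent.P004K

open Vale.Agent.P022 P027H P027M.M Vale.Agent.P022.H218.L3
open P004Z.EF (Par)
open P004M.TE (Pt)

/-- the congruence on `E` -/
def CGE : Prop := ∀ (K : Type) [Field K] [NumberField K] (j : K →+* Qb), Iq K →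
  ∀ N a A B w Λ F x y (I : Ideal (𝓞 K)), 0 < N → Par N a A B w Λ F x y → F ∈ Hol → Cn N I →
  ∃ M, 0 < M ∧ ∀ c l : ℕ, 0 < c → c.Coprime N → l.Prime → ¬ l ∣ c * N → ¬ l ∣ M →
    (Ideal.span {(l : 𝓞 K)}).IsPrime → ∀ P : Ideal (𝓞 Qb), P.IsPrime → (l : 𝓞 Qb) ∈ P →
    ∀ (φ : GQ) σ, (∀ x : 𝓞 Qb, φ • x - x ^ l ∈ P) → Ex σ φ → ∀ τ τ' τ'', Hp (JJ j) N I c τ →
    Hp (JJ j) N I (c * l) τ' → Cj0 σ N τ τ'' → ∀ Y : Pt A B, Un Λ (F τ' - F τ'') Y → K1 P Y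

end Vale.Agent.P004K
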