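import Vale.Agent.P004K.St3
import Vale.Agent.P004K.Tr
import Vale.Agent.P004K.Gm.Val

/-! # P004K: the two halves of the congruence (rows) -/

set_option autoImplicit false

open UpperHalfPlane NumberField CongruenceSubgroup
open scoped MatrixGroups

noncomputable section

namespace Vale.Agent.P004K

open Vale.Agent.P022 P027H P027M.M Vale.Agent.P022.H218.L3
open P004Z.EF (Val)

/-- `τ` has good reduction -/
def Gp (A : ValuationSubring ℂ) (τ : ℍ) : Prop := tf τ ∈ A ∧ A.valuation (tf τ ^ 2 - 4) = 1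

/-- `τ₁` and `τ₂` have the same reduction on `Y₀(N)` -/
structure Nr (A : ValuationSubring ℂ) (N : ℕ) (τ₁ τ₂ : ℍ) : Prop where
  g1 : Gp A τ₁
  g2 : Gp A τ₂
  t : rs A (tf τ₁) = rs A (tf τ₂)
  sep : ∀ γ ∈ Gamma0 4, rs A (rf (N * 4) ![0, 1] τ₂) = rs A (rf (N * 4) ![0, 1] (γ • τ₁)) →
    γ ∈ Gamma0 N

/-- modular functions respect reduction -/
def FFR : Prop := ∀ N, 0 < N → ∀ z ∈ MF (Gamma0 N), z ∈ FS → ∃ M : ℕ, 0 < M ∧
  ∀ A : ValuationSubring ℂ, A.valuation M = 1 → ∀ τ₁ τ₂, Nr A N τ₁ τ₂ → ∀ a ∈ A,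
    (Val τ₁ z a → ∃ b ∈ A, Val τ₂ z b ∧ rs A b = rs A a) ∧
    (Val τ₂ z a → ∃ b ∈ A, Val τ₁ z b ∧ rs A b = rs A a)

/-- the Heegner points at an inert prime -/
def CMR : Prop := ∀ (K : Type) [Field K] [NumberField K] (j : K →+* Qb), Iq K →
  ∀ (N : ℕ) (I : Ideal (𝓞 K)) (c l : ℕ), 0 < N → Cn N I → 0 < c → c.Coprime N → l.Prime →
  ¬ l ∣ c * N → l ≠ 2 → (Ideal.span {(l : 𝓞 K)}).IsPrime → ∀ (A : ValuationSubring ℂ) σ,
  A.valuation l < 1 → Gm.Fr A σ l → ∀ τ τ' τ'', Hp (JJ j) N I c τ → Hp (JJ j) N I (c * l) τ' →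
  Cj0 σ N τ τ'' → ∃ γ₁ ∈ Gamma0 N, ∃ γ₂ ∈ Gamma0 N, Nr A N (γ₁ • τ') (γ₂ • τ'')

end Vale.Agent.P004K
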